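import Vale.Agent.P200b.Sign

/-!
Polynomials with coefficients in a division algebra, and frames of linear forms.
-/

noncomputable section

namespace Vale.Agent.P200b

open MvPolynomial

/-- Polynomials with coefficients in `D`, the variables being central. -/
abbrev AD (D : Type*) [DivisionRing D] (n : ℕ) : Type _ := AddMonoidAlgebra D (Fin n →₀ ℕ)

variable {K D : Type*} [Field K] [DivisionRing D] [Algebra K D] {n : ℕ}

/-- Coefficientwise inclusion of polynomials. -/
def inc : MvPolynomial (Fin n) K →+* AD D n :=
  AddMonoidAlgebra.mapRingHom (Fin n →₀ ℕ) (algebraMap K D)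

theorem inc_monomial (a : Fin n →₀ ℕ) (c : K) :
    (inc (monomial a c) : AD D n) = AddMonoidAlgebra.single a (algebraMap K D c) :=
  AddMonoidAlgebra.mapRingHom_single _ _ _

theorem coeff_inc (p : MvPolynomial (Fin n) K) (a : Fin n →₀ ℕ) :
    (inc p : AD D n).coeff a = algebraMap K D (coeff a p) := by
  simp only [inc, AddMonoidAlgebra.coeff_mapRingHom]
  rfl

theorem inc_commute (p : MvPolynomial (Fin n) K) (x : AD D n) : Commute (inc p : AD D n) x := by
  induction p using MvPolynomial.induction_on' with
  | monomial a c =>
    rw [inc_monomial]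
    induction x using AddMonoidAlgebra.induction_linear with
    | zero => exact Commute.zero_right _
    | add x y hx hy => exact hx.add_right hy
    | single b d =>
      rw [Commute, SemiconjBy, AddMonoidAlgebra.single_mul_single, AddMonoidAlgebra.single_mul_single,
        add_comm, (Algebra.commutes c d)]
  | add p q hp hq => rw [map_add]; exact hp.add_left hq

theorem inc_smul (c : K) (p : MvPolynomial (Fin n) K) :
    (inc (c • p) : AD D n) = algebraMap K D c • inc p := by
  ext a
  rw [coeff_inc, AddMonoidAlgebra.coeff_smul, Finsupp.smul_apply, coeff_inc, coeff_smul,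
    smul_eq_mul, smul_eq_mul, map_mul]

theorem single_zero_mul (d : D) (x : AD D n) : AddMonoidAlgebra.single 0 d * x = d • x := by
  induction x using AddMonoidAlgebra.induction_linear with
  | zero => simp
  | add x y hx hy => rw [mul_add, smul_add, hx, hy]
  | single b e => rw [AddMonoidAlgebra.single_mul_single, zero_add, AddMonoidAlgebra.smul_single]; rfl

theorem smul_mul (d : D) (x y : AD D n) : d • x * y = d • (x * y) := by
  rw [← single_zero_mul, ← single_zero_mul, mul_assoc]

theorem inc_mul_single (d : D) (p : MvPolynomial (Fin n) K) :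
    (inc p : AD D n) * AddMonoidAlgebra.single 0 d = d • inc p := by
  rw [← single_zero_mul, (inc_commute p _).eq]

/-- A variable. -/
def xv (j : Fin n) : AD D n := AddMonoidAlgebra.single (Finsupp.single j 1) 1

theorem inc_X (j : Fin n) : (inc (X j : MvPolynomial (Fin n) K) : AD D n) = xv j := by
  rw [X, inc_monomial, map_one]; rfl

theorem xv_commute (j : Fin n) (x : AD D n) : Commute (xv j : AD D n) x := by
  induction x using AddMonoidAlgebra.induction_linear with
  | zero => exact Commute.zero_right _
  | add x y hx hy => exact hx.add_right hy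
  | single b d =>
    rw [Commute, SemiconjBy, xv, AddMonoidAlgebra.single_mul_single,
      AddMonoidAlgebra.single_mul_single, add_comm, one_mul, mul_one]

/-- The linear form with the given coefficients. -/
def lin (r : Fin n → D) : AD D n := ∑ j, r j • xv j

theorem lin_mul_lin (a b : Fin n → D) :
    lin a * lin b = ∑ j, ∑ k, (a j * b k) • (xv j * xv k : AD D n) := by
  rw [lin, lin, Finset.sum_mul]
  refine Finset.sum_congr rfl fun j _ => ?_
  rw [smul_mul, Finset.mul_sum, Finset.smul_sum]
  refine Finset.sum_congr rfl fun k _ => ?_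
  rw [((xv_commute j (b k • xv k))).eq, smul_mul, smul_smul, ((xv_commute j (xv k : AD D n))).eq]

/-- The exponent of the sign between two members of a frame. -/
def ex (c : ℕ) (u t : Fin n) : ℕ := if u.1 < c ∧ t.1 < c then 1 else 0

/-- A basis of linear forms over `D` adapted to a system of quadrics. -/
structure Frame (K D : Type*) [Field K] [DivisionRing D] [Algebra K D] (n c : ℕ)
    (f : Fin c → MvPolynomial (Fin n) K) where
  /-- coefficients of the forms -/
  G : Fin n → Fin n → D
  comm : ∀ u t, u ≠ t → ∀ j k, G t j * G u k = (-1) ^ ex c u t * (G u k * G t j)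
  span : Submodule.span D (Set.range G) = ⊤
  sq : ∀ s : Fin n, s.1 < c → ∃ (a : Fin c → D) (r : Fin n → Fin n → D),
    lin (G s) * lin (G s) = ∑ t, a t • inc (f t) +
      ∑ u ∈ Finset.univ.filter (fun u : Fin n => c ≤ u.1), lin (r u) * lin (G u)

variable {c : ℕ} {f : Fin c → MvPolynomial (Fin n) K}

/-- The forms of a frame. -/
def Frame.g (F : Frame K D n c f) (u : Fin n) : AD D n := lin (F.G u)

theorem neg_one_pow_smul (k : ℕ) (x : AD D n) :
    (-1 : AD D n) ^ k * x = ((-1 : D) ^ k) • x := by
  rcases neg_one_pow_eq_or (AD D n) k with h | h <;>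
    rcases Nat.even_or_odd k with h' | h' <;>
    simp [h'.neg_one_pow]

theorem Frame.g_comm (F : Frame K D n c f) (u t : Fin n) (h : u ≠ t) :
    F.g t * F.g u = (-1) ^ ex c u t * (F.g u * F.g t) := by
  rw [Frame.g, Frame.g, lin_mul_lin, lin_mul_lin, neg_one_pow_smul, Finset.smul_sum,
    Finset.sum_comm]
  refine Finset.sum_congr rfl fun k _ => ?_
  rw [Finset.smul_sum]
  refine Finset.sum_congr rfl fun j _ => ?_
  rw [F.comm u t h j k, smul_smul, (xv_commute j (xv k : AD D n)).eq]

/-- The ordered monomials of a frame. -/
def Frame.M (F : Frame K D n c f) (a : Fin n →₀ ℕ) : AD D n := mon F.g n a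

/-- The sign exponent of the product of a monomial and a form. -/
def sx (c : ℕ) (s : Fin n) (a : Fin n →₀ ℕ) : ℕ := par (ex c) n s a

theorem Frame.M_mul (F : Frame K D n c f) (a : Fin n →₀ ℕ) (s : Fin n) :
    F.M a * F.g s = ((-1 : D) ^ sx c s a) • F.M (a + Finsupp.single s 1) := by
  rw [Frame.M, mon_mul F.g (ex c) F.g_comm n a s s.2, neg_one_pow_smul]
  congr 1
  refine mon_congr F.g n _ _ fun u _ => ?_
  by_cases h : u = s
  · subst h; simp
  · simp [Function.update_of_ne h, Finsupp.single_eq_of_ne h]

end Vale.Agent.P200b
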