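import Vale.Agent.P200b.Coord

/-!
The Koszul complexes of the variables and of a frame correspond.
-/

noncomputable section

namespace Vale.Agent.P200b

variable {K D : Type*} [Field K] [DivisionRing D] [Algebra K D] {n c : ℕ}
  {f : Fin c → MvPolynomial (Fin n) K}

/-- The sign exponent of a variable in a set. -/
def epsX (T : Finset (Fin n)) (i : Fin n) : ℕ := (T.filter (· < i)).card

/-- The sign exponent of a frame member in a set. -/
def epsG (c : ℕ) (T : Finset (Fin n)) (i : Fin n) : ℕ :=
  ∑ u ∈ T.filter (· < i), (1 + ex c u i)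

theorem ex_comm (c : ℕ) (u t : Fin n) : ex c u t = ex c t u := by
  simp only [ex, and_comm]

/-- A sign. -/
def sg (D : Type*) [DivisionRing D] (k : ℕ) : D := (-1) ^ k

theorem sg_comm (k : ℕ) (x : D) : x * sg D k = sg D k * x :=
  ((Commute.one_right x).neg_right.pow_right k).eq

theorem sg_add (k l : ℕ) : sg D (k + l) = sg D k * sg D l := pow_add _ _ _

theorem sg_ne (k : ℕ) : sg D k ≠ 0 := pow_ne_zero _ (neg_ne_zero.2 one_ne_zero)

/-- Minors with noncommuting entries, by induction on the size. -/
def minorAux (c : ℕ) (G : Fin n → Fin n → D) : ℕ → Finset (Fin n) → Finset (Fin n) → D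
  | 0, S, J => if S = ∅ ∧ J = ∅ then 1 else 0
  | k + 1, S, J => if h : J.Nonempty then
      ∑ s ∈ S, sg D (epsG c (S.erase s) s) * G s (J.min' h) *
        minorAux c G k (S.erase s) (J.erase (J.min' h))
    else 0

/-- The minor. -/
def Frame.A (F : Frame K D n c f) (S J : Finset (Fin n)) : D := minorAux c F.G J.card S J

theorem Frame.A_empty (F : Frame K D n c f) (S : Finset (Fin n)) :
    F.A S ∅ = if S = ∅ then 1 else 0 := by
  simp [Frame.A, minorAux]

theorem Frame.A_min (F : Frame K D n c f) (S J : Finset (Fin n)) (m : Fin n) (hm : m ∈ J)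
    (hmin : ∀ x ∈ J, m ≤ x) :
    F.A S J = ∑ s ∈ S, sg D (epsG c (S.erase s) s) * F.G s m * F.A (S.erase s) (J.erase m) := by
  have hne : J.Nonempty := ⟨m, hm⟩
  have hmm : J.min' hne = m := le_antisymm (J.min'_le m hm) (J.le_min' hne m hmin)
  have hk : J.card = (J.erase m).card + 1 := (Finset.card_erase_add_one hm).symm
  rw [Frame.A, hk, minorAux, dif_pos hne, hmm]
  rfl

theorem Frame.A_ne_zero (F : Frame K D n c f) : ∀ (k : ℕ) (S J : Finset (Fin n)), J.card = k →
    F.A S J ≠ 0 → S.card = k := by
  intro k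
  induction k with
  | zero =>
    intro S J hJ h
    rw [Finset.card_eq_zero] at hJ
    subst hJ
    rw [F.A_empty] at h
    by_cases hS : S = ∅
    · simp [hS]
    · simp [hS] at h
  | succ k ih =>
    intro S J hJ h
    have hne : J.Nonempty := Finset.card_pos.1 (by omega)
    rw [F.A_min S J _ (J.min'_mem hne) (fun x hx => J.min'_le x hx)] at h
    obtain ⟨s, hs, h⟩ := Finset.exists_ne_zero_of_sum_ne_zero h
    have := ih (S.erase s) (J.erase (J.min' hne))
      (by rw [Finset.card_erase_of_mem (J.min'_mem hne), hJ]; rfl) (right_ne_zero_of_mul h)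
    rw [Finset.card_erase_of_mem hs] at this
    have := Finset.card_pos.2 ⟨s, hs⟩
    omega

theorem epsG_insert (c : ℕ) (T : Finset (Fin n)) (i s : Fin n) (hs : s ∉ T) :
    epsG c (insert s T) i = epsG c T i + if s < i then 1 + ex c s i else 0 := by
  unfold epsG
  rw [Finset.filter_insert]
  split_ifs with h
  · rw [Finset.sum_insert (by simp [hs]), add_comm]
  · rw [add_zero]

/-- Sums over ordered pairs of distinct members cancel. -/
theorem Frame.pair_zero (F : Frame K D n c f) (S : Finset (Fin n)) (Y : Fin n → Fin n → D)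
    (B : Finset (Fin n) → D)
    (hY : ∀ s t, s ≠ t → Y t s = sg D (ex c s t) * Y s t) :
    ∑ s ∈ S, ∑ t ∈ S.erase s, sg D (epsG c (S.erase s) s + epsG c ((S.erase s).erase t) t) *
      Y s t * B ((S.erase s).erase t) = 0 := by
  classical
  rw [Finset.sum_sigma']
  refine Finset.sum_involution (fun p _ => ⟨p.2, p.1⟩) ?_ ?_ ?_ ?_
  · rintro ⟨s, t⟩ hp
    simp only [Finset.mem_sigma, Finset.mem_erase] at hp
    obtain ⟨hs, hts, ht⟩ := hp
    set R := (S.erase s).erase t with hR
    have hR' : (S.erase t).erase s = R := Finset.erase_right_comm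
    have e1 : S.erase s = insert t R := (Finset.insert_erase (Finset.mem_erase.2 ⟨hts, ht⟩)).symm
    have e2 : S.erase t = insert s R := by
      rw [← hR']
      exact (Finset.insert_erase (Finset.mem_erase.2 ⟨Ne.symm hts, hs⟩)).symm
    have htR : t ∉ R := Finset.notMem_erase t _
    have hsR : s ∉ R := fun h => Finset.notMem_erase s S (Finset.mem_of_mem_erase h)
    show sg D (epsG c (S.erase s) s + epsG c R t) * Y s t * B R +
      sg D (epsG c (S.erase t) t + epsG c ((S.erase t).erase s) s) * Y t s * B ((S.erase t).erase s) = 0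
    rw [hR', hY s t (Ne.symm hts), ← add_mul, ← mul_assoc (sg D _) (sg D _) (Y s t), ← add_mul,
      ← sg_add, e1, e2, epsG_insert c R s t htR, epsG_insert c R t s hsR]
    refine mul_eq_zero_of_left (mul_eq_zero_of_left ?_ _) _
    rcases lt_or_gt_of_ne hts with h | h
    · rw [if_pos h, if_neg (not_lt.2 h.le), ex_comm c t s,
        show epsG c R s + (1 + ex c s t) + epsG c R t =
          (epsG c R t + 0 + epsG c R s + ex c s t) + 1 by ring, sg_add _ 1]
      simp [sg]
    · rw [if_neg (not_lt.2 h.le), if_pos h,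
        show epsG c R t + (1 + ex c s t) + epsG c R s + ex c s t =
          (epsG c R s + 0 + epsG c R t) + (1 + (ex c s t + ex c s t)) by ring, sg_add _ (1 + _),
        sg_add 1 _, sg_add (ex c s t) (ex c s t)]
      unfold sg
      rcases neg_one_pow_eq_or D (ex c s t) with h' | h' <;> simp [h']
  · rintro ⟨s, t⟩ hp _ h
    simp only [Finset.mem_sigma, Finset.mem_erase] at hp
    exact hp.2.1 (congrArg Sigma.fst h)
  · rintro ⟨s, t⟩ hp
    simp only [Finset.mem_sigma, Finset.mem_erase] at hp ⊢
    exact ⟨hp.2.2, Ne.symm hp.2.1, hp.1⟩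
  · rintro ⟨s, t⟩ _
    rfl

theorem Frame.G_comm (F : Frame K D n c f) (s t : Fin n) (h : s ≠ t) (j k : Fin n) :
    F.G t j * F.G s k = sg D (ex c s t) * (F.G s k * F.G t j) := F.comm s t h j k

/-- Expansion along an arbitrary new column. -/
theorem Frame.A_expand (F : Frame K D n c f) : ∀ (k : ℕ) (S J : Finset (Fin n)) (j : Fin n),
    J.card = k →
    ∑ s ∈ S, sg D (epsG c (S.erase s) s) * F.G s j * F.A (S.erase s) J =
      if j ∈ J then 0 else sg D (epsX J j) * F.A S (insert j J) := by
  classical
  intro k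
  induction k with
  | zero =>
    intro S J j hJ
    rw [Finset.card_eq_zero] at hJ
    subst hJ
    rw [if_neg (Finset.notMem_empty j), F.A_min S (insert j ∅) j (Finset.mem_insert_self _ _)
      (by simp), Finset.erase_insert (Finset.notMem_empty j)]
    simp [epsX, sg]
  | succ k ih =>
    intro S J j hJ
    have hne : J.Nonempty := Finset.card_pos.1 (by omega)
    set m := J.min' hne
    have hmJ : m ∈ J := J.min'_mem hne
    have hmin : ∀ x ∈ J, m ≤ x := fun x hx => J.min'_le x hx
    have hJm : (J.erase m).card = k := by rw [Finset.card_erase_of_mem hmJ, hJ]; rfl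
    rcases lt_trichotomy j m with hjm | hjm | hjm
    · have hjJ : j ∉ J := fun h => not_lt.2 (hmin j h) hjm
      rw [if_neg hjJ, F.A_min S (insert j J) j (Finset.mem_insert_self _ _)
        (fun x hx => (Finset.mem_insert.1 hx).elim (fun h => h.ge) (fun h => hjm.le.trans (hmin x h))),
        Finset.erase_insert hjJ]
      have : epsX J j = 0 := by
        rw [epsX, Finset.card_eq_zero, Finset.filter_eq_empty_iff]
        exact fun x hx => not_lt.2 (hjm.le.trans (hmin x hx))
      simp [this, sg]
    · subst hjm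
      rw [if_pos hmJ]
      simp only [F.A_min (S.erase _) J m hmJ hmin, Finset.mul_sum]
      refine Eq.trans (Finset.sum_congr rfl fun s hs => Finset.sum_congr rfl fun t ht => ?_)
        (F.pair_zero S (fun s t => F.G s m * F.G t m) (fun R => F.A R (J.erase m))
          (fun s t h => F.G_comm s t h m m))
      simp only [sg_add, mul_assoc]
      rw [← mul_assoc (F.G s m) (sg D _), sg_comm, mul_assoc]
    · have key := F.pair_zero S (fun s t => F.G s j * F.G t m + F.G s m * F.G t j)
        (fun R => F.A R (J.erase m)) (fun s t h => by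
          rw [F.G_comm s t h j m, F.G_comm s t h m j, ← mul_add, add_comm])
      simp only [mul_add, add_mul, Finset.sum_add_distrib] at key
      have e1 : ∀ x y : Fin n, ∑ s ∈ S, ∑ t ∈ S.erase s,
          sg D (epsG c (S.erase s) s + epsG c ((S.erase s).erase t) t) * (F.G s x * F.G t y) *
            F.A ((S.erase s).erase t) (J.erase m) =
          ∑ s ∈ S, sg D (epsG c (S.erase s) s) * F.G s x * ∑ t ∈ S.erase s,
            sg D (epsG c ((S.erase s).erase t) t) * F.G t y * F.A ((S.erase s).erase t) (J.erase m) := by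
        intro x y
        refine Finset.sum_congr rfl fun s _ => ?_
        rw [Finset.mul_sum]
        refine Finset.sum_congr rfl fun t _ => ?_
        simp only [sg_add, mul_assoc]
        rw [← mul_assoc (F.G s x) (sg D _), sg_comm, mul_assoc]
      rw [e1, e1] at key
      simp only [ih (S.erase _) (J.erase m) j hJm] at key
      simp only [F.A_min (S.erase _) J m hmJ hmin]
      rw [eq_neg_of_add_eq_zero_left key]
      have hjm' : j ≠ m := ne_of_gt hjm
      have hiff : j ∈ J.erase m ↔ j ∈ J := by simp [hjm']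
      by_cases hjJ : j ∈ J
      · simp [hjJ, hiff.2 hjJ]
      · simp only [if_neg hjJ, if_neg (fun h => hjJ (hiff.1 h))]
        rw [F.A_min S (insert j J) m (Finset.mem_insert_of_mem hmJ)
          (fun x hx => (Finset.mem_insert.1 hx).elim (fun h => h ▸ hjm.le) (hmin x)),
          Finset.erase_insert_of_ne hjm', Finset.mul_sum, ← Finset.sum_neg_distrib]
        refine Finset.sum_congr rfl fun s _ => ?_
        have hc : epsX J j = epsX (J.erase m) j + 1 := by
          simp only [epsX, Finset.filter_erase]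
          exact (Finset.card_erase_add_one (Finset.mem_filter.2 ⟨hmJ, hjm⟩)).symm
        rw [hc, sg_add, show sg D 1 = -1 by simp [sg], mul_neg_one, neg_mul, ← mul_assoc, sg_comm]
        simp only [mul_assoc]

/-- The coefficient embedding. -/
def cst (d : D) : AD D n := AddMonoidAlgebra.single 0 d

theorem cst_mul_cst (a b : D) : (cst a : AD D n) * cst b = cst (a * b) := by
  simp [cst, AddMonoidAlgebra.single_mul_single]

theorem cst_sum {ι : Type*} (s : Finset ι) (a : ι → D) :
    (cst (∑ i ∈ s, a i) : AD D n) = ∑ i ∈ s, cst (a i) :=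
  map_sum (AddMonoidAlgebra.singleAddHom (0 : Fin n →₀ ℕ)) a s

theorem cst_zero : (cst (0 : D) : AD D n) = 0 := AddMonoidAlgebra.single_zero _

theorem mul_cst_sg (x : AD D n) (k : ℕ) (a : D) :
    x * cst (sg D k * a) = sg D k • (x * cst a) := by
  rw [← cst_mul_cst, ← mul_assoc]
  have : x * cst (sg D k) = sg D k • x := by
    rw [← single_zero_mul]
    induction x using AddMonoidAlgebra.induction_linear with
    | zero => simp
    | add x y hx hy => rw [add_mul, mul_add, hx, hy]
    | single b e =>
      rw [cst, AddMonoidAlgebra.single_mul_single, AddMonoidAlgebra.single_mul_single, add_comm,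
        sg_comm]
  rw [this, smul_mul]

theorem coeff_mul_cst (x : AD D n) (d : D) (a : Fin n →₀ ℕ) :
    (x * cst d).coeff a = x.coeff a * d := by
  induction x using AddMonoidAlgebra.induction_linear with
  | zero => simp
  | add x y hx hy => simp [add_mul, hx, hy]
  | single b e =>
    rw [cst, AddMonoidAlgebra.single_mul_single, add_zero]
    by_cases h : b = a <;> simp [h]

/-- A Koszul differential. -/
def kd (g : Fin n → AD D n) (ε : Finset (Fin n) → Fin n → ℕ) :
    (Finset (Fin n) → AD D n) →ₗ[D] (Finset (Fin n) → AD D n) where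
  toFun φ T := ∑ i ∈ Tᶜ, sg D (ε T i) • (φ (insert i T) * g i)
  map_add' φ ψ := by
    funext T
    simp [add_mul, Finset.sum_add_distrib]
  map_smul' d φ := by
    funext T
    simp only [Pi.smul_apply, RingHom.id_apply, Finset.smul_sum]
    refine Finset.sum_congr rfl fun i _ => ?_
    rw [smul_mul, smul_smul, smul_smul, sg_comm]

/-- The differential of the variables. -/
def dX (D : Type*) [DivisionRing D] (n : ℕ) := kd (xv (D := D) (n := n)) epsX

/-- The differential of a frame. -/
def Frame.dG (F : Frame K D n c f) := kd F.g (epsG c)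

/-- The comparison map. -/
def Frame.Phi (F : Frame K D n c f) :
    (Finset (Fin n) → AD D n) →ₗ[D] (Finset (Fin n) → AD D n) where
  toFun φ T := ∑ S, φ S * cst (F.A S T)
  map_add' φ ψ := by funext T; simp [add_mul, Finset.sum_add_distrib]
  map_smul' d φ := by
    funext T
    simp only [Pi.smul_apply, RingHom.id_apply, Finset.smul_sum]
    exact Finset.sum_congr rfl fun S _ => smul_mul d _ _

theorem sum_pairs {M : Type*} [AddCommMonoid M] (F : Finset (Fin n) → Fin n → M) :
    ∑ R : Finset (Fin n), ∑ i ∈ Rᶜ, F R i = ∑ S : Finset (Fin n), ∑ i ∈ S, F (S.erase i) i := by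
  rw [Finset.sum_sigma', Finset.sum_sigma']
  refine Finset.sum_nbij' (fun p => ⟨insert p.2 p.1, p.2⟩) (fun p => ⟨p.1.erase p.2, p.2⟩)
    ?_ ?_ ?_ ?_ ?_
  · intro p _; simp
  · intro p _; simp
  · rintro ⟨R, i⟩ hp
    simp only [Finset.mem_sigma, Finset.mem_univ, Finset.mem_compl, true_and] at hp
    simp [Finset.erase_insert hp]
  · rintro ⟨S, i⟩ hp
    simp only [Finset.mem_sigma, Finset.mem_univ, true_and] at hp
    simp [Finset.insert_erase hp]
  · rintro ⟨R, i⟩ hp
    simp only [Finset.mem_sigma, Finset.mem_univ, Finset.mem_compl, true_and] at hp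
    simp [Finset.erase_insert hp]

theorem Frame.Phi_column (F : Frame K D n c f) (ψ : Finset (Fin n) → AD D n) (T : Finset (Fin n))
    (j : Fin n) :
    ∑ R : Finset (Fin n), ∑ i ∈ Rᶜ, ψ (insert i R) * cst (sg D (epsG c R i) * F.G i j * F.A R T) =
      if j ∈ T then 0 else sg D (epsX T j) • F.Phi ψ (insert j T) := by
  rw [sum_pairs]
  have : ∀ S : Finset (Fin n), ∑ i ∈ S, ψ (insert i (S.erase i)) *
      cst (sg D (epsG c (S.erase i) i) * F.G i j * F.A (S.erase i) T) =
      ψ S * cst (if j ∈ T then 0 else sg D (epsX T j) * F.A S (insert j T)) := by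
    intro S
    rw [← F.A_expand T.card S T j rfl, cst_sum, Finset.mul_sum]
    exact Finset.sum_congr rfl fun i hi => by rw [Finset.insert_erase hi]
  simp only [this]
  by_cases hj : j ∈ T
  · simp [hj, cst_zero]
  · simp only [if_neg hj, mul_cst_sg]
    rw [show F.Phi ψ (insert j T) = ∑ S, ψ S * cst (F.A S (insert j T)) from rfl, Finset.smul_sum]

theorem lin_mul_cst (r : Fin n → D) (a : D) :
    lin r * cst a = ∑ j, cst (r j * a) * xv j := by
  rw [lin, Finset.sum_mul]
  refine Finset.sum_congr rfl fun j _ => ?_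
  rw [← cst_mul_cst, smul_mul, (xv_commute j (cst a)).eq, ← single_zero_mul, ← mul_assoc]
  rfl

theorem Frame.Phi_dG (F : Frame K D n c f) (φ : Finset (Fin n) → AD D n) :
    F.Phi (F.dG φ) = dX D n (F.Phi φ) := by
  funext T
  have e1 : F.Phi (F.dG φ) T = ∑ j, (∑ R : Finset (Fin n), ∑ i ∈ Rᶜ,
      φ (insert i R) * cst (sg D (epsG c R i) * F.G i j * F.A R T)) * xv j := by
    show ∑ R, (∑ i ∈ Rᶜ, sg D (epsG c R i) • (φ (insert i R) * F.g i)) * cst (F.A R T) = _
    simp only [Finset.sum_mul, smul_mul, mul_assoc, Frame.g, lin_mul_cst, Finset.mul_sum,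
      Finset.smul_sum]
    rw [Finset.sum_comm (γ := Fin n)]
    refine Finset.sum_congr rfl fun R _ => ?_
    rw [Finset.sum_comm (γ := Fin n)]
    refine Finset.sum_congr rfl fun i _ => Finset.sum_congr rfl fun j _ => ?_
    rw [← mul_assoc, ← smul_mul, ← mul_cst_sg, mul_assoc]
  rw [e1]
  simp only [F.Phi_column]
  rw [← Finset.sum_filter_of_ne (p := fun j => j ∉ T) (fun j _ h hj => h (by rw [if_pos hj, zero_mul]))]
  show _ = ∑ i ∈ Tᶜ, sg D (epsX T i) • (F.Phi φ (insert i T) * xv i)
  refine Finset.sum_congr (by ext; simp) fun j hj => ?_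
  rw [if_neg (Finset.mem_compl.1 hj), smul_mul]

theorem Frame.rows_li (F : Frame K D n c f) : LinearIndependent D F.G :=
  linearIndependent_of_top_le_span_of_card_eq_finrank F.span.ge (by rw [Module.finrank_pi])

theorem Frame.Phi_eq_zero (F : Frame K D n c f) : ∀ (k : ℕ) (ψ : Finset (Fin n) → AD D n),
    (∀ S, S.card ≠ k → ψ S = 0) → F.Phi ψ = 0 → ψ = 0 := by
  intro k
  induction k with
  | zero =>
    intro ψ hs h
    funext S
    by_cases hS : S = ∅
    · subst hS
      have h0 := congrFun h ∅
      have e : F.Phi ψ ∅ = ψ ∅ := by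
        show ∑ S, ψ S * cst (F.A S ∅) = _
        rw [Finset.sum_eq_single ∅ (fun S _ hS => by simp [F.A_empty, hS, cst_zero]) (by simp)]
        simp [F.A_empty, cst, AddMonoidAlgebra.one_def.symm]
      rwa [e] at h0
    · exact hs S (by simp [hS])
  | succ k ih =>
    intro ψ hs h
    have hz : ∀ j, (fun R => ∑ i ∈ Rᶜ, ψ (insert i R) * cst (sg D (epsG c R i) * F.G i j)) = 0 := by
      intro j
      refine ih _ (fun R hR => Finset.sum_eq_zero fun i hi => ?_) ?_
      · rw [hs _ (by rw [Finset.card_insert_of_notMem (Finset.mem_compl.1 hi)]; omega), zero_mul]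
      · funext T
        show ∑ R, (∑ i ∈ Rᶜ, _) * cst (F.A R T) = 0
        simp only [Finset.sum_mul, mul_assoc, cst_mul_cst]
        refine Eq.trans ?_ ((F.Phi_column ψ T j).trans ?_)
        · simp only [mul_assoc]
        · simp [h]
    funext S
    by_cases hS : S.card = k + 1
    · obtain ⟨s, hsS⟩ : S.Nonempty := Finset.card_pos.1 (by omega)
      set R := S.erase s
      refine AddMonoidAlgebra.ext ?_
      ext a
      have hb : ∑ i : Fin n, (if i ∈ Rᶜ then (ψ (insert i R)).coeff a * sg D (epsG c R i) else 0) •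
          F.G i = 0 := by
        funext j
        have h1 := congrArg (fun x : AD D n => x.coeff a) (congrFun (hz j) R)
        simp only [AddMonoidAlgebra.coeff_sum, Finsupp.finsetSum_apply, coeff_mul_cst, Pi.zero_apply,
          AddMonoidAlgebra.coeff_zero, Finsupp.coe_zero] at h1
        simp only [Finset.sum_apply, Pi.smul_apply, smul_eq_mul, ite_mul, zero_mul, Pi.zero_apply,
          Finset.sum_ite_mem, Finset.univ_inter, mul_assoc]
        exact h1
      have h2 := Fintype.linearIndependent_iff.1 F.rows_li _ hb s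
      rw [if_pos (Finset.mem_compl.2 (Finset.notMem_erase s S)), mul_eq_zero,
        Finset.insert_erase hsS] at h2
      simpa using h2.resolve_right (sg_ne _)
    · exact hs S hS

/-- Chains with coefficients in `D`. -/
def chainsD (W : ℕ → Submodule D (AD D n)) (p j : ℕ) : Submodule D (Finset (Fin n) → AD D n) :=
  Submodule.pi Set.univ fun T => if T.card = p ∧ p ≤ j then W (j - p) else ⊥

theorem mem_chainsD {W : ℕ → Submodule D (AD D n)} {p j : ℕ} {φ : Finset (Fin n) → AD D n} :
    φ ∈ chainsD W p j ↔
      ∀ T, (T.card = p ∧ p ≤ j → φ T ∈ W (j - p)) ∧ (¬(T.card = p ∧ p ≤ j) → φ T = 0) := by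
  rw [chainsD, Submodule.mem_pi]
  refine forall_congr' fun T => ?_
  by_cases h : T.card = p ∧ p ≤ j <;> simp [h]

theorem chainsD_finite (W : ℕ → Submodule D (AD D n)) (hW : ∀ e, W e ≤ full D n e) (p j : ℕ) :
    Module.Finite D (chainsD W p j) := by
  let L : chainsD W p j →ₗ[D] ((T : Finset (Fin n)) → full D n (j - p)) :=
    LinearMap.pi fun T => LinearMap.codRestrict _ ((LinearMap.proj T).comp (chainsD W p j).subtype)
      (fun φ => by
        by_cases h : T.card = p ∧ p ≤ j
        · exact hW _ ((mem_chainsD.1 φ.2 T).1 h)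
        · show φ.1 T ∈ _
          rw [(mem_chainsD.1 φ.2 T).2 h]
          exact zero_mem _)
  refine Module.Finite.of_injective L fun a b h => ?_
  apply Subtype.ext
  funext T
  exact congrArg Subtype.val (congrFun h T)

theorem Frame.Phi_map_chains (F : Frame K D n c f) (W : ℕ → Submodule D (AD D n))
    (hW : ∀ e, W e ≤ full D n e) (hC : ∀ e, ∀ x ∈ W e, ∀ d, x * cst d ∈ W e) (p j : ℕ) :
    (chainsD W p j).map F.Phi = chainsD W p j := by
  have := chainsD_finite W hW p j
  have hle : (chainsD W p j).map F.Phi ≤ chainsD W p j := by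
    rintro _ ⟨φ, hφ, rfl⟩
    refine mem_chainsD.2 fun T => ⟨fun hT => ?_, fun hT => ?_⟩
    · show ∑ S, φ S * cst (F.A S T) ∈ _
      refine Submodule.sum_mem _ fun S _ => ?_
      by_cases hS : S.card = p ∧ p ≤ j
      · exact hC _ _ ((mem_chainsD.1 hφ S).1 hS) _
      · rw [(mem_chainsD.1 hφ S).2 hS, zero_mul]
        exact zero_mem _
    · show ∑ S, φ S * cst (F.A S T) = 0
      refine Finset.sum_eq_zero fun S _ => ?_
      by_cases hS : S.card = p ∧ p ≤ j
      · have hA : F.A S T = 0 := by
          by_contra h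
          exact hT ⟨(F.A_ne_zero T.card S T rfl h).symm.trans hS.1, hS.2⟩
        rw [hA, cst_zero, mul_zero]
      · rw [(mem_chainsD.1 hφ S).2 hS, zero_mul]
  refine Submodule.eq_of_le_of_finrank_le hle (le_of_eq ?_)
  have hinj : Function.Injective (F.Phi.comp (chainsD W p j).subtype) := by
    rw [← LinearMap.ker_eq_bot, LinearMap.ker_eq_bot']
    intro φ hφ
    exact Subtype.ext (F.Phi_eq_zero p φ.1
      (fun S hS => (mem_chainsD.1 φ.2 S).2 (fun h => hS h.1)) hφ)
  have h := LinearMap.finrank_range_of_inj hinj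
  rw [LinearMap.range_comp, Submodule.range_subtype] at h
  exact h.symm

end Vale.Agent.P200b
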