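import Vale.Agent.P200b.Koszul

/-!
Betti numbers through ranks of boundaries.
-/

noncomputable section

namespace Vale.Agent.P200b

open MvPolynomial

variable {K : Type*} [Field K] {n : ℕ}

theorem mem_chains {I : Ideal (MvPolynomial (Fin n) K)} {p j : ℕ}
    {φ : Finset (Fin n) → MvPolynomial (Fin n) K} :
    φ ∈ chains I p j ↔
      ∀ T, (T.card = p ∧ p ≤ j → φ T ∈ I ∧ (φ T).IsHomogeneous (j - p)) ∧
        (¬(T.card = p ∧ p ≤ j) → φ T = 0) := by
  rw [chains, Submodule.mem_pi]
  refine forall_congr' fun T => ?_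
  by_cases h : T.card = p ∧ p ≤ j <;> simp [h]

theorem finite_pi {ι : Type*} [Finite ι] {M : Type*} [AddCommGroup M] [Module K M]
    (W : ι → Submodule K M) [∀ i, Module.Finite K (W i)] :
    Module.Finite K (Submodule.pi Set.univ W) ∧
      Nonempty (Submodule.pi Set.univ W ≃ₗ[K] ((i : ι) → W i)) := by
  let e : Submodule.pi Set.univ W ≃ₗ[K] ((i : ι) → W i) :=
    { toFun := fun φ i => ⟨φ.1 i, Submodule.mem_pi.1 φ.2 i trivial⟩
      invFun := fun ψ => ⟨fun i => (ψ i).1, Submodule.mem_pi.2 fun i _ => (ψ i).2⟩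
      map_add' := fun _ _ => rfl
      map_smul' := fun _ _ => rfl }
  exact ⟨Module.Finite.equiv e.symm, ⟨e⟩⟩

instance piece'_finite (I : Ideal (MvPolynomial (Fin n) K)) (d : ℕ) (P : Prop) [Decidable P] :
    Module.Finite K (if P then I.restrictScalars K ⊓ homogeneousSubmodule (Fin n) K d else ⊥ :
      Submodule K (MvPolynomial (Fin n) K)) := by
  have : Module.Finite K (homogeneousSubmodule (Fin n) K d) :=
    Module.Finite.iff_fg.2 (homogeneousSubmodule_fg (Fin n) K d)
  by_cases h : P
  · rw [if_pos h]; exact Submodule.finiteDimensional_inf_right _ _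
  · rw [if_neg h]; infer_instance

instance chains_finite (I : Ideal (MvPolynomial (Fin n) K)) (p j : ℕ) :
    Module.Finite K (chains I p j) := (finite_pi _).1

theorem finrank_chains (I J : Ideal (MvPolynomial (Fin n) K)) (p j : ℕ)
    (h : ∀ d, Module.finrank K
        (I.restrictScalars K ⊓ homogeneousSubmodule (Fin n) K d : Submodule K _) =
      Module.finrank K
        (J.restrictScalars K ⊓ homogeneousSubmodule (Fin n) K d : Submodule K _)) :
    Module.finrank K (chains I p j) = Module.finrank K (chains J p j) := by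
  unfold chains
  obtain ⟨e⟩ := (finite_pi (K := K) fun T : Finset (Fin n) =>
    if T.card = p ∧ p ≤ j then I.restrictScalars K ⊓ homogeneousSubmodule (Fin n) K (j - p) else ⊥).2
  obtain ⟨e'⟩ := (finite_pi (K := K) fun T : Finset (Fin n) =>
    if T.card = p ∧ p ≤ j then J.restrictScalars K ⊓ homogeneousSubmodule (Fin n) K (j - p) else ⊥).2
  rw [e.finrank_eq, e'.finrank_eq, Module.finrank_pi_fintype, Module.finrank_pi_fintype]
  refine Finset.sum_congr rfl fun T _ => ?_
  by_cases hT : T.card = p ∧ p ≤ j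
  · rw [if_pos hT, if_pos hT, h]
  · rw [if_neg hT, if_neg hT]

theorem koszul_mem_chains {p j : ℕ} {φ : Finset (Fin n) → MvPolynomial (Fin n) K}
    (h : φ ∈ chains ⊤ (p + 1) j) : koszul φ ∈ chains ⊤ p j := by
  refine mem_chains.2 fun T => ⟨fun hT => ⟨Submodule.mem_top, ?_⟩, fun hT => ?_⟩
  · show (∑ i ∈ Tᶜ, _ : MvPolynomial (Fin n) K).IsHomogeneous _
    refine IsHomogeneous.sum _ _ _ fun i hi => ?_
    by_cases hS : (insert i T).card = p + 1 ∧ p + 1 ≤ j
    · have h1 := ((mem_chains.1 h _).1 hS).2
      have h2 := ((((isHomogeneous_one (Fin n) K).neg).pow (T.filter (· < i)).card).mul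
        (isHomogeneous_X K i)).mul h1
      have e : 0 * (T.filter (· < i)).card + 1 + (j - (p + 1)) = j - p := by
        have := hS.2
        omega
      rw [e] at h2
      exact h2
    · rw [(mem_chains.1 h _).2 hS, mul_zero]
      exact isHomogeneous_zero _ _ _
  · refine Finset.sum_eq_zero fun i hi => ?_
    rw [(mem_chains.1 h _).2 ?_, mul_zero]
    intro hS
    rw [Finset.card_insert_of_notMem (Finset.mem_compl.1 hi)] at hS
    exact hT ⟨by omega, by omega⟩

theorem boundaries_le (I : Ideal (MvPolynomial (Fin n) K)) (p j : ℕ) :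
    boundaries I p j ≤ chains ⊤ p j := by
  refine sup_le (fun φ hφ => mem_chains.2 fun T => ⟨fun hT => ⟨Submodule.mem_top,
    ((mem_chains.1 hφ T).1 hT).2⟩, (mem_chains.1 hφ T).2⟩) ?_
  rintro _ ⟨φ, hφ, rfl⟩
  exact koszul_mem_chains hφ

theorem finrank_inf_comap {M : Type*} [AddCommGroup M] [Module K M] (d : M →ₗ[K] M)
    (V W : Submodule K M) [Module.Finite K V] [Module.Finite K W] :
    Module.finrank K (V ⊓ W.comap d : Submodule K M) + Module.finrank K (W ⊔ V.map d : Submodule K M) =
      Module.finrank K V + Module.finrank K W := by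
  set V' := V ⊓ W.comap d
  have : Module.Finite K V' := Submodule.finiteDimensional_inf_left _ _
  have key : ∀ U : Submodule K M, ∀ [Module.Finite K U],
      Module.finrank K U = Module.finrank K (U.map d) +
        Module.finrank K (U ⊓ LinearMap.ker d : Submodule K M) := by
    intro U _
    have h := (d.comp U.subtype).finrank_range_add_finrank_ker
    rw [LinearMap.range_comp, Submodule.range_subtype] at h
    have h2 : LinearMap.ker (d.comp U.subtype) = (U ⊓ LinearMap.ker d).comap U.subtype := by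
      ext x; simp
    rw [h2, (Submodule.comapSubtypeEquivOfLe (inf_le_left : U ⊓ LinearMap.ker d ≤ U)).finrank_eq] at h
    exact h.symm
  have h1 := key V
  have h2 := key V'
  have e1 : V' ⊓ LinearMap.ker d = V ⊓ LinearMap.ker d := by
    refine le_antisymm (inf_le_inf_right _ inf_le_left) (le_inf (le_inf inf_le_left ?_) inf_le_right)
    intro x hx
    rw [Submodule.mem_comap, LinearMap.mem_ker.1 hx.2]
    exact zero_mem _
  have e2 : V'.map d = W ⊓ V.map d := by
    refine le_antisymm ?_ ?_
    · rintro _ ⟨x, hx, rfl⟩; exact ⟨hx.2, x, hx.1, rfl⟩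
    · rintro _ ⟨hW, x, hx, rfl⟩; exact ⟨x, ⟨hx, hW⟩, rfl⟩
  have h3 := Submodule.finrank_sup_add_finrank_inf_eq W (V.map d)
  rw [e1, e2] at h2
  omega

theorem cycles_succ (I : Ideal (MvPolynomial (Fin n) K)) (p j : ℕ) :
    Module.finrank K (cycles I (p + 1) j) + Module.finrank K (boundaries I p j) =
      Module.finrank K (chains (⊤ : Ideal (MvPolynomial (Fin n) K)) (p + 1) j) +
        Module.finrank K (chains I p j) := by
  have e : cycles I (p + 1) j = chains ⊤ (p + 1) j ⊓ (chains I p j).comap koszul := by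
    ext φ
    constructor
    · rintro ⟨h1, h2⟩
      refine ⟨h1, mem_chains.2 fun T => ?_⟩
      have h3 := mem_chains.1 (koszul_mem_chains h1) T
      exact ⟨fun hT => ⟨Submodule.mem_pi.1 h2 T trivial, (h3.1 hT).2⟩, h3.2⟩
    · rintro ⟨h1, h2⟩
      refine ⟨h1, Submodule.mem_pi.2 fun T _ => ?_⟩
      by_cases hT : T.card = p ∧ p ≤ j
      · exact ((mem_chains.1 h2 T).1 hT).1
      · rw [(mem_chains.1 h2 T).2 hT]
        exact zero_mem _
  rw [e]
  exact finrank_inf_comap koszul _ _

theorem cycles_zero (I : Ideal (MvPolynomial (Fin n) K)) (j : ℕ) :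
    cycles I 0 j = chains ⊤ 0 j := by
  refine le_antisymm inf_le_left (le_inf le_rfl fun φ hφ => Submodule.mem_pi.2 fun T _ => ?_)
  have : koszul φ T = 0 := Finset.sum_eq_zero fun i _ => by
    rw [(mem_chains.1 hφ _).2 (by simp), mul_zero]
  rw [this]
  exact zero_mem _

/-- Larger boundary ranks give smaller Betti numbers. -/
theorem betti_le_of_boundaries (I J : Ideal (MvPolynomial (Fin n) K)) (j : ℕ)
    (hHF : ∀ d, Module.finrank K
        (I.restrictScalars K ⊓ homogeneousSubmodule (Fin n) K d : Submodule K _) =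
      Module.finrank K
        (J.restrictScalars K ⊓ homogeneousSubmodule (Fin n) K d : Submodule K _))
    (hr : ∀ p, Module.finrank K (boundaries J p j) ≤ Module.finrank K (boundaries I p j)) :
    ∀ p, betti I p j ≤ betti J p j := by
  intro p
  unfold betti
  rcases p with _ | p
  · rw [cycles_zero, cycles_zero]
    have := hr 0
    omega
  · have h1 := cycles_succ I p j
    have h2 := cycles_succ J p j
    have h3 := finrank_chains I J p j hHF
    have h4 := hr p
    have h5 := hr (p + 1)
    omega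

theorem koszul_koszul (φ : Finset (Fin n) → MvPolynomial (Fin n) K) : koszul (koszul φ) = 0 := by
  classical
  funext T
  show ∑ i ∈ Tᶜ, (-1 : MvPolynomial (Fin n) K) ^ (T.filter (· < i)).card * X i *
    (∑ k ∈ (insert i T)ᶜ, (-1 : MvPolynomial (Fin n) K) ^ ((insert i T).filter (· < k)).card * X k *
      φ (insert k (insert i T))) = 0
  simp only [Finset.mul_sum]
  rw [Finset.sum_sigma']
  refine Finset.sum_involution (fun x _ => ⟨x.2, x.1⟩) ?_ ?_ ?_ ?_
  · rintro ⟨i, k⟩ hx
    simp only [Finset.mem_sigma, Finset.mem_compl, Finset.mem_insert, not_or] at hx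
    obtain ⟨hi, hki, hk⟩ := hx
    show _ + _ = (0 : MvPolynomial (Fin n) K)
    simp only [Finset.insert_comm i k T, Finset.filter_insert]
    rcases lt_or_gt_of_ne hki with h | h
    · rw [if_pos h, if_neg (not_lt.2 h.le), Finset.card_insert_of_notMem (by simp [hk]), pow_succ]
      ring
    · rw [if_neg (not_lt.2 h.le), if_pos h, Finset.card_insert_of_notMem (by simp [hi]), pow_succ]
      ring
  · rintro ⟨i, k⟩ hx _ h
    simp only [Finset.mem_sigma, Finset.mem_compl, Finset.mem_insert, not_or] at hx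
    exact hx.2.1 (congrArg Sigma.fst h)
  · rintro ⟨i, k⟩ hx
    simp only [Finset.mem_sigma, Finset.mem_compl, Finset.mem_insert, not_or] at hx ⊢
    exact ⟨hx.2.2, Ne.symm hx.2.1, hx.1⟩
  · rintro ⟨i, k⟩ _
    rfl

theorem boundaries_le_cycles (I : Ideal (MvPolynomial (Fin n) K)) (p j : ℕ) :
    boundaries I p j ≤ cycles I p j := by
  refine le_inf (boundaries_le I p j) (sup_le (fun φ hφ => ?_) ?_)
  · refine Submodule.mem_pi.2 fun T _ => ?_
    refine I.sum_mem fun i _ => I.mul_mem_left _ ?_
    by_cases h : (insert i T).card = p ∧ p ≤ j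
    · exact ((mem_chains.1 hφ _).1 h).1
    · rw [(mem_chains.1 hφ _).2 h]
      exact zero_mem _
  · rintro _ ⟨ψ, _, rfl⟩
    rw [Submodule.mem_comap, koszul_koszul]
    exact zero_mem _

end Vale.Agent.P200b
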