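import Vale.Agent.P200b.Alt
import Vale.Agent.P200b.Formula

/-!
Ranks of Koszul boundaries against the leading monomial ideal.
-/

noncomputable section

namespace Vale.Agent.P200b

open MvPolynomial

variable {K D : Type*} [Field K] [DivisionRing D] [Algebra K D] {n c : ℕ}
  {f : Fin c → MvPolynomial (Fin n) K}

/-- Componentwise inclusion of chains. -/
def incV (φ : Finset (Fin n) → MvPolynomial (Fin n) K) : Finset (Fin n) → AD D n :=
  fun T => inc (φ T)

theorem inc_neg_one_pow (k : ℕ) (p : MvPolynomial (Fin n) K) :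
    (inc ((-1) ^ k * p) : AD D n) = sg D k • inc p := by
  rw [map_mul, map_pow, map_neg, map_one, neg_one_pow_smul]
  rfl

theorem incV_koszul (φ : Finset (Fin n) → MvPolynomial (Fin n) K) :
    dX D n (incV φ) = incV (koszul φ) := by
  funext T
  show ∑ i ∈ Tᶜ, sg D (epsX T i) • ((inc (φ (insert i T)) : AD D n) * xv i) = inc (∑ i ∈ Tᶜ, _)
  rw [map_sum]
  refine Finset.sum_congr rfl fun i _ => ?_
  rw [mul_assoc, inc_neg_one_pow, map_mul, inc_X, (xv_commute i _).eq]
  rfl

/-- The `D`-span of included boundaries. -/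
def bdD (D : Type*) [DivisionRing D] [Algebra K D] (I : Ideal (MvPolynomial (Fin n) K)) (p j : ℕ) :
    Submodule D (Finset (Fin n) → AD D n) :=
  Submodule.span D (incV (K := K) (D := D) '' ↑(boundaries I p j))

theorem boundaries_finite (I : Ideal (MvPolynomial (Fin n) K)) (p j : ℕ) :
    Module.Finite K (boundaries I p j) :=
  Submodule.finiteDimensional_of_le (boundaries_le I p j)

theorem finrank_bdD_le (I : Ideal (MvPolynomial (Fin n) K)) (p j : ℕ) :
    Module.Finite D (bdD D I p j) ∧
      Module.finrank D (bdD D I p j) ≤ Module.finrank K (boundaries I p j) := by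
  have := boundaries_finite I p j
  let b := Module.finBasis K (boundaries I p j)
  let v : Fin (Module.finrank K (boundaries I p j)) → Finset (Fin n) → AD D n := fun i => incV (b i).1
  have hsp : bdD D I p j = Submodule.span D (Set.range v) := by
    refine le_antisymm (Submodule.span_le.2 ?_) (Submodule.span_le.2 ?_)
    · rintro _ ⟨φ, hφ, rfl⟩
      have h := congrArg Subtype.val (b.sum_repr ⟨φ, hφ⟩)
      simp only [Submodule.coe_sum, Submodule.coe_smul] at h
      rw [← h]
      have e : (incV (∑ i, b.repr ⟨φ, hφ⟩ i • (b i).1) : Finset (Fin n) → AD D n) =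
          ∑ i, algebraMap K D (b.repr ⟨φ, hφ⟩ i) • v i := by
        funext T
        simp [incV, v, Finset.sum_apply, inc_smul]
      rw [e]
      exact Submodule.sum_mem _ fun i _ =>
        Submodule.smul_mem _ _ (Submodule.subset_span ⟨i, rfl⟩)
    · rintro _ ⟨i, rfl⟩
      exact Submodule.subset_span ⟨_, (b i).2, rfl⟩
  rw [hsp]
  exact ⟨Module.Finite.span_of_finite D (Set.finite_range v),
    (finrank_range_le_card v).trans (le_of_eq (Fintype.card_fin _))⟩

theorem incV_single (T : Finset (Fin n)) (q : MvPolynomial (Fin n) K) :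
    (incV (Pi.single T q) : Finset (Fin n) → AD D n) = Pi.single T (inc q) := by
  funext T'
  simp only [incV, Pi.single_apply]
  split_ifs
  · rfl
  · exact map_zero _

theorem chainsD_le_bdD (I : Ideal (MvPolynomial (Fin n) K)) (p j : ℕ) :
    chainsD (idD D I) p j ≤ bdD D I p j := by
  intro ψ hψ
  have e : ψ = ∑ T, LinearMap.single D (fun _ : Finset (Fin n) => AD D n) T (ψ T) := by
    simp [LinearMap.coe_single, Finset.univ_sum_single]
  rw [e]
  refine Submodule.sum_mem _ fun T _ => ?_
  by_cases hT : T.card = p ∧ p ≤ j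
  · have hle : idD D I (j - p) ≤ (bdD D I p j).comap (LinearMap.single D _ T) := by
      refine Submodule.span_le.2 ?_
      rintro _ ⟨q, hq, rfl⟩
      refine Submodule.subset_span ⟨Pi.single T q, Submodule.mem_sup_left (mem_chains.2 fun T' => ?_), incV_single T q⟩
      by_cases h : T' = T
      · subst h
        rw [Pi.single_eq_same]
        exact ⟨fun _ => hq, fun h' => absurd hT h'⟩
      · rw [Pi.single_eq_of_ne h]
        exact ⟨fun _ => ⟨zero_mem _, isHomogeneous_zero _ _ _⟩, fun _ => rfl⟩
    exact hle ((mem_chainsD.1 hψ T).1 hT)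
  · rw [(mem_chainsD.1 hψ T).2 hT, map_zero]
    exact zero_mem _

theorem dX_full_le_bdD (I : Ideal (MvPolynomial (Fin n) K)) (p j : ℕ) :
    (chainsD (full D n) (p + 1) j).map (dX D n) ≤ bdD D I p j := by
  rintro _ ⟨ψ, hψ, rfl⟩
  have e : ψ = ∑ T, LinearMap.single D (fun _ : Finset (Fin n) => AD D n) T (ψ T) := by
    simp [LinearMap.coe_single, Finset.univ_sum_single]
  rw [e, map_sum]
  refine Submodule.sum_mem _ fun T _ => ?_
  by_cases hT : T.card = p + 1 ∧ p + 1 ≤ j
  · have hle : full D n (j - (p + 1)) ≤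
        (bdD D I p j).comap ((dX D n).comp (LinearMap.single D _ T)) := by
      refine Submodule.span_le.2 ?_
      rintro _ ⟨a, rfl⟩
      refine Submodule.subset_span ⟨koszul (Pi.single T (monomial a.1 1)),
        Submodule.mem_sup_right ⟨_, mem_chains.2 fun T' => ?_, rfl⟩, ?_⟩
      · by_cases h : T' = T
        · subst h
          rw [Pi.single_eq_same]
          exact ⟨fun _ => ⟨Submodule.mem_top, isHomogeneous_monomial _ a.2⟩, fun h' => absurd hT h'⟩
        · rw [Pi.single_eq_of_ne h]
          exact ⟨fun _ => ⟨zero_mem _, isHomogeneous_zero _ _ _⟩, fun _ => rfl⟩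
      · rw [← incV_koszul, incV_single, inc_monomial, map_one]
        rfl
    exact hle ((mem_chainsD.1 hψ T).1 hT)
  · rw [(mem_chainsD.1 hψ T).2 hT, map_zero, map_zero]
    exact zero_mem _

/-- The boundary space built with a frame. -/
def Frame.bdG (F : Frame K D n c f) (I : Ideal (MvPolynomial (Fin n) K)) (p j : ℕ) :
    Submodule D (Finset (Fin n) → AD D n) :=
  chainsD (idD D I) p j ⊔ (chainsD (full D n) (p + 1) j).map F.dG

theorem Frame.dG_mem (F : Frame K D n c f) {p j : ℕ} {ψ : Finset (Fin n) → AD D n}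
    (h : ψ ∈ chainsD (full D n) (p + 1) j) : F.dG ψ ∈ chainsD (full D n) p j := by
  refine mem_chainsD.2 fun T => ⟨fun hT => ?_, fun hT => ?_⟩
  · refine Submodule.sum_mem _ fun i _ => Submodule.smul_mem _ _ ?_
    by_cases hS : (insert i T).card = p + 1 ∧ p + 1 ≤ j
    · have h1 := full_mul_lin ((mem_chainsD.1 h _).1 hS) (F.G i)
      rw [show j - (p + 1) + 1 = j - p by omega] at h1
      exact h1
    · rw [(mem_chainsD.1 h _).2 hS, zero_mul]
      exact zero_mem _
  · refine Finset.sum_eq_zero fun i hi => ?_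
    rw [(mem_chainsD.1 h _).2 ?_, zero_mul, smul_zero]
    intro hS
    rw [Finset.card_insert_of_notMem (Finset.mem_compl.1 hi)] at hS
    exact hT ⟨by omega, by omega⟩

theorem mul_cst_mem_full {e : ℕ} {x : AD D n} (hx : x ∈ full D n e) (d : D) :
    x * cst d ∈ full D n e := by
  induction hx using Submodule.span_induction with
  | mem y hy =>
    obtain ⟨a, rfl⟩ := hy
    rw [cst, AddMonoidAlgebra.single_mul_single, add_zero]
    exact single_mem_full _ _ a.2
  | zero => rw [zero_mul]; exact zero_mem _
  | add y z _ _ hy hz => rw [add_mul]; exact add_mem hy hz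
  | smul r y _ hy => rw [smul_mul]; exact Submodule.smul_mem _ _ hy

theorem mul_cst_mem_idD (I : Ideal (MvPolynomial (Fin n) K)) {e : ℕ} {x : AD D n}
    (hx : x ∈ idD D I e) (d : D) : x * cst d ∈ idD D I e := by
  induction hx using Submodule.span_induction with
  | mem y hy =>
    obtain ⟨q, hq, rfl⟩ := hy
    rw [cst, inc_mul_single]
    exact Submodule.smul_mem _ _ (Submodule.subset_span ⟨q, hq, rfl⟩)
  | zero => rw [zero_mul]; exact zero_mem _
  | add y z _ _ hy hz => rw [add_mul]; exact add_mem hy hz
  | smul r y _ hy => rw [smul_mul]; exact Submodule.smul_mem _ _ hy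

theorem Frame.bdG_le (F : Frame K D n c f) (I : Ideal (MvPolynomial (Fin n) K)) (p j : ℕ) :
    F.bdG I p j ≤ chainsD (full D n) p j := by
  refine sup_le (fun ψ hψ => mem_chainsD.2 fun T => ⟨fun hT => idD_le_full I _ ((mem_chainsD.1 hψ T).1 hT),
    (mem_chainsD.1 hψ T).2⟩) ?_
  rintro _ ⟨ψ, hψ, rfl⟩
  exact F.dG_mem hψ

theorem Frame.finrank_bdG_le (F : Frame K D n c f) (I : Ideal (MvPolynomial (Fin n) K)) (p j : ℕ) :
    Module.Finite D (F.bdG I p j) ∧
      Module.finrank D (F.bdG I p j) ≤ Module.finrank K (boundaries I p j) := by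
  have hfinfull := chainsD_finite (full D n) (fun _ => le_rfl) p j
  have hfin : Module.Finite D (F.bdG I p j) :=
    Module.Finite.of_injective (Submodule.inclusion (F.bdG_le I p j)) (Submodule.inclusion_injective _)
  refine ⟨hfin, ?_⟩
  obtain ⟨hfinbd, hle⟩ := finrank_bdD_le (D := D) I p j
  have hmap : (F.bdG I p j).map F.Phi ≤ bdD D I p j := by
    rw [Frame.bdG, Submodule.map_sup,
      F.Phi_map_chains _ (idD_le_full I) (fun e x hx d => mul_cst_mem_idD I hx d) p j]
    refine sup_le (chainsD_le_bdD I p j) ?_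
    rintro _ ⟨_, ⟨ψ, hψ, rfl⟩, rfl⟩
    refine dX_full_le_bdD I p j ⟨F.Phi ψ, ?_, (F.Phi_dG ψ).symm⟩
    have := Submodule.mem_map_of_mem (f := F.Phi) hψ
    rwa [F.Phi_map_chains _ (fun _ => le_rfl) (fun e x hx d => mul_cst_mem_full hx d) (p + 1) j] at this
  have hinj : Function.Injective (F.Phi.comp (F.bdG I p j).subtype) := by
    rw [← LinearMap.ker_eq_bot, LinearMap.ker_eq_bot']
    intro φ hφ
    exact Subtype.ext (F.Phi_eq_zero p φ.1
      (fun S hS => (mem_chainsD.1 (F.bdG_le I p j φ.2) S).2 (fun h => hS h.1)) hφ)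
  have h := LinearMap.finrank_range_of_inj hinj
  rw [LinearMap.range_comp, Submodule.range_subtype] at h
  calc Module.finrank D (F.bdG I p j) = Module.finrank D ((F.bdG I p j).map F.Phi) := h.symm
    _ ≤ Module.finrank D (bdD D I p j) := Submodule.finrank_mono hmap
    _ ≤ _ := hle

theorem kd_single (g : Fin n → AD D n) (ε : Finset (Fin n) → Fin n → ℕ) (S : Finset (Fin n))
    (x : AD D n) :
    kd g ε (Pi.single S x) = ∑ i ∈ S, Pi.single (S.erase i) (sg D (ε (S.erase i) i) • (x * g i)) := by
  funext T
  simp only [kd, LinearMap.coe_mk, AddHom.coe_mk, Finset.sum_apply, Pi.single_apply]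
  rw [← Finset.sum_filter_of_ne (p := fun i => insert i T = S) (fun i _ h => by
      by_contra h'; exact h (by simp [h'])),
    ← Finset.sum_filter]
  refine Finset.sum_congr ?_ fun i hi => ?_
  · ext i
    simp only [Finset.mem_filter, Finset.mem_compl]
    constructor
    · rintro ⟨h, rfl⟩
      exact ⟨Finset.mem_insert_self _ _, (Finset.erase_insert h).symm⟩
    · rintro ⟨h, rfl⟩
      exact ⟨Finset.notMem_erase i S, Finset.insert_erase h⟩
  · simp only [Finset.mem_filter] at hi
    obtain ⟨hiS, rfl⟩ := hi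
    rw [if_pos (Finset.insert_erase hiS)]

theorem koszul_single (S : Finset (Fin n)) (q : MvPolynomial (Fin n) K) :
    koszul (Pi.single S q) = ∑ i ∈ S, Pi.single (S.erase i) ((-1) ^ epsX (S.erase i) i * X i * q) := by
  funext T
  simp only [koszul, LinearMap.coe_mk, AddHom.coe_mk, Finset.sum_apply, Pi.single_apply]
  rw [← Finset.sum_filter_of_ne (p := fun i => insert i T = S) (fun i _ h => by
      by_contra h'; exact h (by simp [h'])),
    ← Finset.sum_filter]
  refine Finset.sum_congr ?_ fun i hi => ?_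
  · ext i
    simp only [Finset.mem_filter, Finset.mem_compl]
    constructor
    · rintro ⟨h, rfl⟩
      exact ⟨Finset.mem_insert_self _ _, (Finset.erase_insert h).symm⟩
    · rintro ⟨h, rfl⟩
      exact ⟨Finset.notMem_erase i S, Finset.insert_erase h⟩
  · simp only [Finset.mem_filter] at hi
    obtain ⟨hiS, rfl⟩ := hi
    rw [if_pos (Finset.insert_erase hiS)]
    rfl

/-- The exponent of a set. -/
def chi (T : Finset (Fin n)) : Fin n →₀ ℕ := ∑ i ∈ T, Finsupp.single i 1

theorem chi_erase {T : Finset (Fin n)} {i : Fin n} (h : i ∈ T) :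
    Finsupp.single i 1 + chi (T.erase i) = chi T :=
  Finset.add_sum_erase T (fun j => Finsupp.single j 1) h

/-- The exponent of the diagonal sign. -/
def nsg (c : ℕ) (T : Finset (Fin n)) (a : Fin n →₀ ℕ) : ℕ := ∑ t ∈ T, sx c t a

theorem sx_add_single (c : ℕ) (t i : Fin n) (a : Fin n →₀ ℕ) :
    sx c t (a + Finsupp.single i 1) = sx c t a + if t < i then ex c t i else 0 := by
  simp only [sx, par, Finsupp.coe_add, Pi.add_apply, mul_add, Finset.sum_add_distrib]
  congr 1
  by_cases h : t < i
  · rw [if_pos h, Finset.sum_eq_single i (fun u _ hu => by simp [Finsupp.single_eq_of_ne hu]) (fun hi =>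
      absurd (Finset.mem_filter.2 ⟨Finset.mem_univ i, h, i.2⟩) hi)]
    simp
  · rw [if_neg h]
    refine Finset.sum_eq_zero fun u hu => ?_
    have hu' : u ≠ i := fun e => h (e ▸ (Finset.mem_filter.1 hu).2.1)
    simp [Finsupp.single_eq_of_ne hu']

theorem sign_identity (c : ℕ) (S : Finset (Fin n)) (i : Fin n) (hi : i ∈ S) (a : Fin n →₀ ℕ) :
    sg D (epsG c (S.erase i) i + sx c i a) =
      sg D (nsg c S a + epsX (S.erase i) i + nsg c (S.erase i) (a + Finsupp.single i 1)) := by
  have h1 : nsg c (S.erase i) (a + Finsupp.single i 1) + sx c i a =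
      nsg c S a + ∑ t ∈ (S.erase i).filter (· < i), ex c t i := by
    simp only [nsg, sx_add_single, Finset.sum_add_distrib, ← Finset.sum_filter]
    rw [← Finset.add_sum_erase S (fun t => sx c t a) hi]
    ring
  have h2 : epsG c (S.erase i) i = epsX (S.erase i) i + ∑ t ∈ (S.erase i).filter (· < i), ex c t i := by
    simp [epsG, epsX, Finset.sum_add_distrib]
  have h3 : nsg c S a + epsX (S.erase i) i + nsg c (S.erase i) (a + Finsupp.single i 1) + 2 * sx c i a =
      epsG c (S.erase i) i + sx c i a + 2 * nsg c S a := by omega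
  have h4 : ∀ k m : ℕ, sg D (k + 2 * m) = sg D k := fun k m => by
    simp [sg, pow_add, pow_mul]
  rw [← h4 (_ + sx c i a) (nsg c S a), ← h3, h4]

/-- The indices of a chain space. -/
abbrev Idx (n p e : ℕ) : Type := {T : Finset (Fin n) // T.card = p} × Ex n e

/-- Chains from coordinates. -/
def Frame.LB (F : Frame K D n c f) (p e : ℕ) :
    (Idx n p e → D) →ₗ[D] (Finset (Fin n) → AD D n) where
  toFun ψ T := if h : T.card = p then F.L e (fun a => ψ (⟨T, h⟩, a)) else 0
  map_add' ψ ψ' := by
    funext T
    by_cases h : T.card = p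
    · simp only [Pi.add_apply, dif_pos h, ← map_add]; rfl
    · simp [h]
  map_smul' d ψ := by
    funext T
    by_cases h : T.card = p
    · simp only [Pi.smul_apply, dif_pos h, RingHom.id_apply, ← map_smul]; rfl
    · simp [h]

theorem Frame.LB_injective (F : Frame K D n c f) (p e : ℕ) : Function.Injective (F.LB p e) := by
  intro ψ ψ' h
  funext x
  have h1 := congrFun h x.1.1
  simp only [Frame.LB, LinearMap.coe_mk, AddHom.coe_mk, dif_pos x.1.2] at h1
  exact congrFun (F.L_injective e h1) x.2

theorem Frame.LB_single (F : Frame K D n c f) (p e : ℕ) (x : Idx n p e) (d : D) :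
    F.LB p e (Pi.single x d) = Pi.single x.1.1 (d • F.M x.2.1) := by
  funext T
  simp only [Frame.LB, LinearMap.coe_mk, AddHom.coe_mk]
  by_cases hT : T = x.1.1
  · subst hT
    rw [dif_pos x.1.2, Pi.single_eq_same, ← F.L_single x.2 d]
    congr 1
    funext a
    simp [Pi.single_apply, Prod.ext_iff]
  · rw [Pi.single_eq_of_ne hT]
    split_ifs with h
    · have : (fun a => (Pi.single x d : Idx n p e → D) (⟨T, h⟩, a)) = 0 := by
        funext a
        exact Pi.single_eq_of_ne (fun h' => hT (congrArg (fun y => y.1.1) h')) _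
      rw [this, map_zero]
    · rfl

/-- Coordinates of chains. -/
def crd (n p e : ℕ) : (Finset (Fin n) → MvPolynomial (Fin n) K) →ₗ[K] (Idx n p e → K) where
  toFun φ x := coeff x.2.1 (φ x.1.1)
  map_add' φ ψ := by funext x; simp
  map_smul' a φ := by funext x; simp

theorem Frame.boundaries_lead_le (F : Frame K D n c f) (I : Ideal (MvPolynomial (Fin n) K))
    (p j : ℕ) :
    Module.finrank K (boundaries
        (Ideal.span ((fun a => monomial a (1 : K)) '' F.lead I)) p j) ≤
      Module.finrank K (boundaries I p j) := by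
  classical
  set JU := Ideal.span ((fun a => monomial a (1 : K)) '' F.lead I)
  by_cases hpj : p ≤ j
  swap
  · have h0 : boundaries JU p j = ⊥ := by
      refine eq_bot_iff.2 fun φ hφ => ?_
      have h := mem_chains.1 (boundaries_le JU p j hφ)
      rw [Submodule.mem_bot]
      funext T
      exact (h T).2 (fun h' => hpj h'.2)
    rw [h0, finrank_bot]; exact Nat.zero_le _
  obtain ⟨hfinG, hG⟩ := F.finrank_bdG_le I p j
  refine le_trans ?_ hG
  set e := j - p
  set e' := j - (p + 1)
  have hfinI := boundaries_finite JU p j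
  let κ := {x : Idx n p e // x.2.1 ∈ F.lead I} ⊕
    ({S : Finset (Fin n) // S.card = p + 1 ∧ p + 1 ≤ j} × Ex n e')
  have hidx : ∀ (S : {S : Finset (Fin n) // S.card = p + 1 ∧ p + 1 ≤ j}) (a : Ex n e') (i : Fin n),
      i ∈ S.1 → (S.1.erase i).card = p ∧ (a.1 + Finsupp.single i 1).degree = e := by
    intro S a i hi
    have := S.2
    refine ⟨by rw [Finset.card_erase_of_mem hi]; omega, ?_⟩
    rw [map_add, Finsupp.degree_single, a.2]
    omega
  let tgt : (S : {S : Finset (Fin n) // S.card = p + 1 ∧ p + 1 ≤ j}) → (a : Ex n e') →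
      (i : {i // i ∈ S.1}) → Idx n p e :=
    fun S a i => (⟨S.1.erase i.1, (hidx S a i.1 i.2).1⟩, ⟨a.1 + Finsupp.single i.1 1, (hidx S a i.1 i.2).2⟩)
  let w : κ → Idx n p e → K := fun k => match k with
    | Sum.inl x => Pi.single x.1 1
    | Sum.inr (S, a) => ∑ i : {i // i ∈ S.1}, Pi.single (tgt S a i) ((-1) ^ epsX (S.1.erase i.1) i.1)
  have hstep1 : Module.finrank K (boundaries JU p j) ≤
      Module.finrank K (Submodule.span K (Set.range w)) := by
    have hinj : Function.Injective ((crd n p e).comp (boundaries JU p j).subtype) := by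
      rw [← LinearMap.ker_eq_bot, LinearMap.ker_eq_bot']
      intro φ hφ
      apply Subtype.ext
      funext T
      have hT := mem_chains.1 (boundaries_le JU p j φ.2) T
      by_cases h : T.card = p ∧ p ≤ j
      · refine MvPolynomial.ext _ _ fun a => ?_
        by_cases ha : a.degree = e
        · simpa [crd] using congrFun hφ (⟨T, h.1⟩, ⟨a, ha⟩)
        · rw [(hT.1 h).2.coeff_eq_zero ha]
          simp
      · exact hT.2 h
    rw [← LinearMap.finrank_range_of_inj hinj, LinearMap.range_comp, Submodule.range_subtype]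
    refine Submodule.finrank_mono ?_
    rw [boundaries, Submodule.map_sup]
    refine sup_le ?_ ?_
    · rintro _ ⟨φ, hφ, rfl⟩
      have : crd n p e φ = ∑ x : Idx n p e, coeff x.2.1 (φ x.1.1) • (Pi.single x 1 : Idx n p e → K) := by
        funext y
        simp [crd, Finset.sum_apply, Pi.single_apply]
      rw [this]
      refine Submodule.sum_mem _ fun x _ => ?_
      by_cases hx : coeff x.2.1 (φ x.1.1) = 0
      · rw [hx, zero_smul]; exact zero_mem _
      · refine Submodule.smul_mem _ _ (Submodule.subset_span ⟨Sum.inl ⟨x, ?_⟩, rfl⟩)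
        obtain ⟨s, hs, hsa⟩ := mem_ideal_span_monomial_image.1
          ((mem_chains.1 hφ x.1.1).1 ⟨x.1.2, hpj⟩).1 x.2.1 (mem_support_iff.2 hx)
        exact F.lead_upper I hs hsa
    · rw [← Submodule.map_comp]
      rintro _ ⟨φ, hφ, rfl⟩
      have e0 : φ = ∑ S, Pi.single S (φ S) := (Finset.univ_sum_single φ).symm
      rw [e0, map_sum]
      refine Submodule.sum_mem _ fun S _ => ?_
      by_cases hS : S.card = p + 1 ∧ p + 1 ≤ j
      · rw [(φ S).as_sum]
        have e1 : ∀ (s : Finset (Fin n →₀ ℕ)) (g : (Fin n →₀ ℕ) → MvPolynomial (Fin n) K),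
            (Pi.single S (∑ a ∈ s, g a) : Finset (Fin n) → MvPolynomial (Fin n) K) =
              ∑ a ∈ s, Pi.single S (g a) := fun s g =>
          map_sum (AddMonoidHom.single (fun _ : Finset (Fin n) => MvPolynomial (Fin n) K) S) g s
        rw [e1, map_sum]
        refine Submodule.sum_mem _ fun a ha => ?_
        have hd : a.degree = e' := by
          rw [Finsupp.degree_eq_weight_one]
          exact ((mem_chains.1 hφ S).1 hS).2 (mem_support_iff.1 ha)
        have e2 : (crd n p e).comp koszul (Pi.single S (monomial a (coeff a (φ S)))) =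
            coeff a (φ S) • w (Sum.inr (⟨S, hS⟩, ⟨a, hd⟩)) := by
          rw [LinearMap.comp_apply, koszul_single, map_sum, Finset.smul_sum]
          rw [← Finset.sum_attach]
          refine Finset.sum_congr rfl fun i _ => ?_
          funext y
          have e3 : ((-1 : MvPolynomial (Fin n) K) ^ epsX (S.erase i.1) i.1 * X i.1 *
              monomial a (coeff a (φ S))) = monomial (a + Finsupp.single i.1 1)
              ((-1) ^ epsX (S.erase i.1) i.1 * coeff a (φ S)) := by
            rw [show (-1 : MvPolynomial (Fin n) K) = C (-1) by simp, ← map_pow, X, C_mul_monomial,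
              monomial_mul, mul_one, add_comm]
          simp only [crd, LinearMap.coe_mk, AddHom.coe_mk, e3, Pi.single_apply, Pi.smul_apply,
            smul_eq_mul, tgt, Prod.ext_iff, Subtype.ext_iff]
          by_cases h1 : y.1.1 = S.erase i.1
          · rw [if_pos h1, coeff_monomial]
            by_cases h2 : a + Finsupp.single i.1 1 = y.2.1
            · rw [if_pos h2, if_pos ⟨h1, h2.symm⟩]; ring
            · rw [if_neg h2, if_neg (fun h => h2 h.2.symm), mul_zero]
          · rw [if_neg h1, if_neg (fun h => h1 h.1)]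
            simp
        rw [e2]
        exact Submodule.smul_mem _ _ (Submodule.subset_span ⟨Sum.inr (⟨S, hS⟩, ⟨a, hd⟩), rfl⟩)
      · rw [(mem_chains.1 hφ S).2 hS, Pi.single_zero, map_zero]
        exact zero_mem _
  refine hstep1.trans ?_
  let V : Submodule D (Idx n p e → D) := (F.bdG I p j).comap (F.LB p e)
  have hV : Module.finrank D V ≤ Module.finrank D (F.bdG I p j) := by
    refine LinearMap.finrank_le_finrank_of_injective (f := (F.LB p e).restrict (p := V) (q := F.bdG I p j)
      (fun x hx => hx)) ?_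
    intro a b h
    exact Subtype.ext (F.LB_injective p e (congrArg Subtype.val h))
  refine le_trans ?_ hV
  let wt' : Idx n p e → ℕ ×ₗ Lex (Fin n → ℕ) := fun x => wt c (x.2.1 + chi x.1.1)
  let grade : κ → ℕ ×ₗ Lex (Fin n → ℕ) := fun k => match k with
    | Sum.inl x => wt c (x.1.2.1 + chi x.1.1.1)
    | Sum.inr (S, a) => wt c (a.1 + chi S.1)
  let ρ : Idx n p e → D := fun x => sg D (nsg c x.1.1 x.2.1)
  let εk : κ → D := fun k => match k with
    | Sum.inl x => sg D (nsg c x.1.1.1 x.1.2.1)
    | Sum.inr (S, a) => sg D (nsg c S.1 a.1)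
  have htgt : ∀ S a i, (tgt S a i).2.1 + chi (tgt S a i).1.1 = a.1 + chi S.1 := by
    intro S a i
    show a.1 + Finsupp.single i.1 1 + chi (S.1.erase i.1) = _
    rw [add_assoc, chi_erase i.2]
  have hex : ∀ k : κ, ∃ v ∈ V, ∀ x, wt' x ≤ grade k →
      v x = εk k * algebraMap K D (w k x) * ρ x := by
    rintro (⟨x, hx⟩ | ⟨S, a⟩)
    · obtain ⟨b, hb, hbx, hlow⟩ := (F.mem_lead I x.2).1 hx
      let v : Idx n p e → D := ∑ y : Ex n e, Pi.single (x.1, y) ((b x.2)⁻¹ * b y)
      refine ⟨v, Submodule.mem_sup_left ?_, fun y hy => ?_⟩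
      · have e1 : F.LB p e v = Pi.single x.1.1 ((b x.2)⁻¹ • F.L e b) := by
          simp only [v, map_sum, F.LB_single, F.L_apply, Finset.smul_sum, smul_smul]
          exact (map_sum (AddMonoidHom.single (fun _ : Finset (Fin n) => AD D n) x.1.1) _ _).symm
        rw [e1]
        refine mem_chainsD.2 fun T => ?_
        by_cases hT : T = x.1.1
        · subst hT
          rw [Pi.single_eq_same]
          exact ⟨fun _ => Submodule.smul_mem _ _ hb, fun h => absurd ⟨x.1.2, hpj⟩ h⟩
        · rw [Pi.single_eq_of_ne hT]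
          exact ⟨fun _ => zero_mem _, fun _ => rfl⟩
      · obtain ⟨T, a⟩ := y
        have hval : v (T, a) = if T = x.1 then (b x.2)⁻¹ * b a else 0 := by
          simp only [v, Finset.sum_apply, Pi.single_apply, Prod.mk.injEq]
          by_cases hT : T = x.1
          · simp [hT]
          · simp [hT]
        show v (T, a) = sg D (nsg c x.1.1 x.2.1) * algebraMap K D ((Pi.single x 1 : Idx n p e → K) (T, a)) *
          sg D (nsg c T.1 a.1)
        rw [hval]
        by_cases hT : T = x.1
        · subst hT
          rw [if_pos rfl]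
          by_cases ha : a = x.2
          · subst ha
            rw [inv_mul_cancel₀ hbx, Pi.single_eq_same, map_one, mul_one]
            simp [sg, ← pow_add, ← two_mul, pow_mul]
          · rw [Pi.single_eq_of_ne (fun h => ha (congrArg Prod.snd h)), map_zero, mul_zero, zero_mul]
            rcases lt_or_ge (wt c a.1) (wt c x.2.1) with h | h
            · rw [hlow a h, mul_zero]
            · exfalso
              have hne : wt c x.2.1 < wt c a.1 := lt_of_le_of_ne h
                (fun h' => ha (Subtype.ext (wt_injective c h'.symm)))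
              exact not_lt.2 hy (wt_add_lt hne _)
        · rw [if_neg hT, Pi.single_eq_of_ne (fun h => hT (congrArg Prod.fst h)), map_zero, mul_zero,
            zero_mul]
    · let v : Idx n p e → D := ∑ i : {i // i ∈ S.1},
        Pi.single (tgt S a i) (sg D (epsG c (S.1.erase i.1) i.1 + sx c i.1 a.1))
      refine ⟨v, Submodule.mem_sup_right ⟨Pi.single S.1 (F.M a.1), ?_, ?_⟩, fun y _ => ?_⟩
      · refine mem_chainsD.2 fun T => ?_
        by_cases hT : T = S.1
        · subst hT
          rw [Pi.single_eq_same]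
          refine ⟨fun _ => ?_, fun h => absurd S.2 h⟩
          have := F.M_mem_full a.1
          rwa [a.2] at this
        · rw [Pi.single_eq_of_ne hT]
          exact ⟨fun _ => zero_mem _, fun _ => rfl⟩
      · simp only [Frame.dG, kd_single, v, map_sum, F.LB_single]
        rw [← Finset.sum_attach]
        refine Finset.sum_congr rfl fun i _ => ?_
        rw [F.M_mul, smul_smul, sg_add]
        rfl
      · show v y = sg D (nsg c S.1 a.1) * algebraMap K D
          ((∑ i : {i // i ∈ S.1}, Pi.single (tgt S a i) ((-1 : K) ^ epsX (S.1.erase i.1) i.1) :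
            Idx n p e → K) y) * ρ y
        simp only [v, Finset.sum_apply, map_sum, Finset.mul_sum, Finset.sum_mul]
        refine Finset.sum_congr rfl fun i _ => ?_
        by_cases hy : y = tgt S a i
        · subst hy
          rw [Pi.single_eq_same, Pi.single_eq_same, sign_identity c S.1 i.1 i.2, map_pow, map_neg,
            map_one, sg_add, sg_add]
          rfl
        · rw [Pi.single_eq_of_ne hy, Pi.single_eq_of_ne hy, map_zero, mul_zero, zero_mul]
  choose v hv hlead using hex
  refine finrank_le_of_leading wt' grade w ?_ ρ (fun x => sg_ne _) εk ?_ V v hv hlead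
  · rintro (⟨x, hx⟩ | ⟨S, a⟩) y hy
    · exact Pi.single_eq_of_ne (by rintro rfl; exact hy rfl) _
    · show (∑ i : {i // i ∈ S.1}, (Pi.single (tgt S a i) _ : Idx n p e → K)) y = 0
      rw [Finset.sum_apply]
      refine Finset.sum_eq_zero fun i _ => Pi.single_eq_of_ne ?_ _
      rintro rfl
      exact hy (congrArg (wt c) (htgt S a i))
  · rintro (x | ⟨S, a⟩) <;> exact sg_ne _

end Vale.Agent.P200b
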