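import Mathlib

/-!
Rank comparison through leading terms, over a division algebra.
-/

noncomputable section

namespace Vale.Agent.P200b

variable {K D : Type*} [Field K] [DivisionRing D] [Algebra K D] {ι κ : Type*} [Fintype ι]

/-- Independence of vectors survives the passage to a division algebra. -/
theorem linearIndependent_algebraMap (w : κ → ι → K) (h : LinearIndependent K w) :
    LinearIndependent D (fun k i => algebraMap K D (w k i)) := by
  classical
  obtain ⟨L, hL⟩ := LinearMap.exists_leftInverse_of_injective (Finsupp.linearCombination K w)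
    (LinearMap.ker_eq_bot.2 h)
  rw [linearIndependent_iff']
  intro s g hg k hk
  have hLw : ∀ l, L (w l) k = if l = k then 1 else 0 := by
    intro l
    have h2 := LinearMap.congr_fun hL (Finsupp.single l 1)
    simp only [LinearMap.comp_apply, Finsupp.linearCombination_single, one_smul, LinearMap.id_apply] at h2
    rw [h2, Finsupp.single_apply]
  have hexp : ∀ v : ι → K, L v k = ∑ x, v x * L (Pi.single x 1) k := by
    intro v
    have e : v = ∑ x, v x • (Pi.single x (1 : K) : ι → K) := by
      funext i
      rw [Finset.sum_apply, Finset.sum_eq_single i (fun b _ hb => by simp [Pi.single_eq_of_ne (Ne.symm hb)]) (by simp)]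
      simp
    conv_lhs => rw [e]
    rw [map_sum, Finsupp.finsetSum_apply]
    exact Finset.sum_congr rfl fun x _ => by rw [map_smul, Finsupp.smul_apply, smul_eq_mul]
  have h0 : ∀ x, ∑ l ∈ s, g l * algebraMap K D (w l x) = 0 := fun x => by
    simpa using congrFun hg x
  calc g k = ∑ l ∈ s, g l * algebraMap K D (L (w l) k) := by
        simp only [hLw, apply_ite (algebraMap K D), map_one, map_zero, mul_ite, mul_one, mul_zero,
          Finset.sum_ite_eq', if_pos hk]
    _ = ∑ x, (∑ l ∈ s, g l * algebraMap K D (w l x)) * algebraMap K D (L (Pi.single x 1) k) := by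
        rw [Finset.sum_congr rfl fun l _ => by rw [hexp (w l)]]
        simp only [map_sum, map_mul, Finset.mul_sum, Finset.sum_mul, mul_assoc]
        exact Finset.sum_comm
    _ = 0 := by simp [h0]

/-- The span of leading parts is no bigger than the space containing the vectors. -/
theorem finrank_le_of_leading {Γ : Type*} [LinearOrder Γ] (wt : ι → Γ) (grade : κ → Γ)
    (w : κ → ι → K) (hw : ∀ k i, wt i ≠ grade k → w k i = 0) (ρ : ι → D) (hρ : ∀ i, ρ i ≠ 0)
    (ε : κ → D) (hε : ∀ k, ε k ≠ 0) (V : Submodule D (ι → D)) (v : κ → ι → D) (hv : ∀ k, v k ∈ V)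
    (hlead : ∀ k i, wt i ≤ grade k → v k i = ε k * algebraMap K D (w k i) * ρ i) :
    Module.finrank K (Submodule.span K (Set.range w)) ≤ Module.finrank D V := by
  classical
  obtain ⟨κ', a, ha, hsp, hli⟩ := exists_linearIndependent' K w
  rw [← hsp]
  have hfin : Finite κ' := hli.finite
  have : Fintype κ' := Fintype.ofFinite κ'
  rw [finrank_span_eq_card hli]
  refine LinearIndependent.fintype_card_le_finrank (R := D) (b := fun k => (⟨v (a k), hv (a k)⟩ : V)) ?_
  rw [Fintype.linearIndependent_iff]
  intro g hg
  by_contra hne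
  push Not at hne
  obtain ⟨k0, hk0, hmin⟩ := Finset.exists_min_image
    (Finset.univ.filter fun k : κ' => g k ≠ 0) (fun k => grade (a k))
    (by obtain ⟨k, hk⟩ := hne; exact ⟨k, by simpa using hk⟩)
  simp only [Finset.mem_filter, Finset.mem_univ, true_and] at hk0 hmin
  have hLI := Fintype.linearIndependent_iff.1 (linearIndependent_algebraMap (D := D) (w ∘ a) hli)
    (fun k => if grade (a k) = grade (a k0) then g k * ε (a k) else 0) ?_ k0
  · rw [if_pos rfl] at hLI
    exact mul_ne_zero hk0 (hε _) hLI
  funext i
  simp only [Finset.sum_apply, Pi.smul_apply, smul_eq_mul, Pi.zero_apply, Function.comp_apply]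
  by_cases hi : wt i = grade (a k0)
  · have h := congrFun (congrArg Subtype.val hg) i
    simp only [Submodule.coe_sum, Submodule.coe_smul, Finset.sum_apply, Pi.smul_apply, smul_eq_mul,
      Submodule.coe_zero, Pi.zero_apply] at h
    refine (mul_eq_zero.1 (?_ : _ * ρ i = 0)).resolve_right (hρ i)
    rw [Finset.sum_mul]
    refine Eq.trans (Finset.sum_congr rfl fun k _ => ?_) h
    by_cases hgk : g k = 0
    · simp [hgk]
    · rw [hlead (a k) i (hi ▸ hmin k hgk)]
      by_cases hgr : grade (a k) = grade (a k0)
      · rw [if_pos hgr]; simp only [mul_assoc]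
      · rw [if_neg hgr, hw (a k) i (fun h' => hgr (h'.symm.trans hi))]
        simp
  · refine Finset.sum_eq_zero fun k _ => ?_
    by_cases hgr : grade (a k) = grade (a k0)
    · rw [hw (a k) i (fun h' => hi (h'.trans hgr)), map_zero, mul_zero]
    · rw [if_neg hgr, zero_mul]

/-- `i` is the position of a leading coefficient of the subspace. -/
def Piv {Γ : Type*} [LinearOrder Γ] (wt : ι → Γ) (U : Submodule D (ι → D)) (i : ι) : Prop :=
  ∃ u ∈ U, u i ≠ 0 ∧ ∀ k, wt k < wt i → u k = 0

theorem ncard_piv {Γ : Type*} [LinearOrder Γ] {wt : ι → Γ} (hw : Function.Injective wt)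
    (U : Submodule D (ι → D)) : {i | Piv wt U i}.ncard = Module.finrank D U := by
  classical
  rw [← Nat.card_coe_set_eq, Nat.card_eq_fintype_card]
  apply le_antisymm
  · choose u hu h1 h2 using fun i : {i | Piv wt U i} => i.2
    refine LinearIndependent.fintype_card_le_finrank (R := D) (b := fun i => (⟨u i, hu i⟩ : U)) ?_
    rw [Fintype.linearIndependent_iff]
    intro g hg
    by_contra hne
    push Not at hne
    obtain ⟨i0, hi0, hmin⟩ := Finset.exists_min_image
      (Finset.univ.filter fun i : {i | Piv wt U i} => g i ≠ 0) (fun i => wt i.1)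
      (by obtain ⟨i, hi⟩ := hne; exact ⟨i, by simpa using hi⟩)
    simp only [Finset.mem_filter, Finset.mem_univ, true_and] at hi0 hmin
    have h := congrFun (congrArg Subtype.val hg) i0.1
    simp only [Submodule.coe_sum, Submodule.coe_smul, Finset.sum_apply, Pi.smul_apply,
      smul_eq_mul, Submodule.coe_zero, Pi.zero_apply] at h
    rw [Finset.sum_eq_single i0] at h
    · exact hi0 ((mul_eq_zero.1 h).resolve_right (h1 i0))
    · intro i _ hi
      by_cases hg0 : g i = 0
      · rw [hg0, zero_mul]
      · have hlt : wt i0.1 < wt i.1 := lt_of_le_of_ne (hmin i hg0)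
          (fun e => hi (Subtype.ext (hw e).symm))
        rw [h2 i _ hlt, mul_zero]
    · simp
  · let g : U →ₗ[D] ({i | Piv wt U i} → D) :=
      (LinearMap.funLeft D D (Subtype.val : {i | Piv wt U i} → ι)).comp U.subtype
    have hg : Function.Injective g := by
      rw [← LinearMap.ker_eq_bot, LinearMap.ker_eq_bot']
      intro x hx
      by_contra hne
      have : ∃ i, x.1 i ≠ 0 := by
        by_contra h
        push Not at h
        exact hne (Subtype.ext (funext h))
      obtain ⟨i0, hi0, hmin⟩ := Finset.exists_min_image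
        (Finset.univ.filter fun i => x.1 i ≠ 0) wt
        (by obtain ⟨i, hi⟩ := this; exact ⟨i, by simpa using hi⟩)
      simp only [Finset.mem_filter, Finset.mem_univ, true_and] at hi0 hmin
      have hp : Piv wt U i0 := ⟨x.1, x.2, hi0, fun k hk => by
        by_contra h; exact absurd (hmin k h) (not_le.2 hk)⟩
      exact hi0 (congrFun hx ⟨i0, hp⟩)
    have := LinearMap.finrank_le_finrank_of_injective hg
    rwa [Module.finrank_pi] at this

end Vale.Agent.P200b
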