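import Vale.Agent.P200b.AD
import Vale.Agent.P200b.Semicont

/-!
The monomial basis of a frame and the leading set of an ideal.
-/

noncomputable section

namespace Vale.Agent.P200b

open MvPolynomial

variable {K D : Type*} [Field K] [DivisionRing D] [Algebra K D] {n c : ℕ}
  {f : Fin c → MvPolynomial (Fin n) K}

/-- Exponents of degree `e`. -/
abbrev Ex (n e : ℕ) : Type := {a : Fin n →₀ ℕ // a.degree = e}

instance exFintype (n e : ℕ) : Fintype (Ex n e) :=
  Fintype.subtype (Finset.univ.finsuppAntidiag e) (fun a => by simp [Finsupp.degree_eq_sum])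

/-- The degree `e` part. -/
def full (D : Type*) [DivisionRing D] (n e : ℕ) : Submodule D (AD D n) :=
  Submodule.span D (Set.range fun a : Ex n e => (AddMonoidAlgebra.single a.1 1 : AD D n))

theorem single_mem_full (a : Fin n →₀ ℕ) (d : D) {e : ℕ} (h : a.degree = e) :
    (AddMonoidAlgebra.single a d : AD D n) ∈ full D n e := by
  have : (AddMonoidAlgebra.single a d : AD D n) = d • AddMonoidAlgebra.single a 1 := by
    rw [AddMonoidAlgebra.smul_single, smul_eq_mul, mul_one]
  rw [this]
  exact Submodule.smul_mem _ _ (Submodule.subset_span ⟨⟨a, h⟩, rfl⟩)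

theorem full_mul_xv {e : ℕ} {x : AD D n} (hx : x ∈ full D n e) (j : Fin n) :
    x * xv j ∈ full D n (e + 1) := by
  induction hx using Submodule.span_induction with
  | mem y hy =>
    obtain ⟨a, rfl⟩ := hy
    rw [xv, AddMonoidAlgebra.single_mul_single]
    exact single_mem_full _ _ (by rw [map_add, Finsupp.degree_single, a.2])
  | zero => rw [zero_mul]; exact zero_mem _
  | add y z _ _ hy hz => rw [add_mul]; exact add_mem hy hz
  | smul d y _ hy => rw [smul_mul]; exact Submodule.smul_mem _ _ hy

theorem full_mul_lin {e : ℕ} {x : AD D n} (hx : x ∈ full D n e) (r : Fin n → D) :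
    x * lin r ∈ full D n (e + 1) := by
  induction hx using Submodule.span_induction with
  | mem y hy =>
    obtain ⟨a, rfl⟩ := hy
    rw [lin, Finset.mul_sum]
    refine Submodule.sum_mem _ fun j _ => ?_
    rw [xv, AddMonoidAlgebra.smul_single, AddMonoidAlgebra.single_mul_single]
    exact single_mem_full _ _ (by rw [map_add, Finsupp.degree_single, a.2])
  | zero => rw [zero_mul]; exact zero_mem _
  | add y z _ _ hy hz => rw [add_mul]; exact add_mem hy hz
  | smul d y _ hy => rw [smul_mul]; exact Submodule.smul_mem _ _ hy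

/-- Coefficient extraction. -/
def coeffL (n e : ℕ) : AD D n →ₗ[D] (Ex n e → D) where
  toFun x := fun a => x.coeff a.1
  map_add' x y := by funext a; simp
  map_smul' d x := by funext a; simp

theorem finrank_full (D : Type*) [DivisionRing D] (n e : ℕ) :
    Module.finrank D (full D n e) = Fintype.card (Ex n e) := by
  classical
  refine finrank_span_eq_card (LinearIndependent.of_comp (coeffL n e) ?_)
  have : (coeffL (D := D) n e ∘ fun a : Ex n e => (AddMonoidAlgebra.single a.1 1 : AD D n)) =
      fun a => Pi.single a 1 := by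
    funext a b
    simp only [Function.comp_apply, coeffL, LinearMap.coe_mk, AddHom.coe_mk,
      AddMonoidAlgebra.coeff_single, Finsupp.single_apply, Pi.single_apply, Subtype.ext_iff]
    exact if_congr eq_comm rfl rfl
  rw [this]
  convert (Pi.basisFun D (Ex n e)).linearIndependent using 1
  funext a
  simp

instance full_finite (D : Type*) [DivisionRing D] (n e : ℕ) : Module.Finite D (full D n e) :=
  Module.Finite.span_of_finite D (Set.finite_range _)

/-- Combinations of the monomials of a frame. -/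
def Frame.L (F : Frame K D n c f) (e : ℕ) : (Ex n e → D) →ₗ[D] AD D n :=
  Fintype.linearCombination D (fun a : Ex n e => F.M a.1)

theorem Frame.L_single (F : Frame K D n c f) {e : ℕ} [DecidableEq (Ex n e)] (a : Ex n e) (d : D) :
    F.L e (Pi.single a d) = d • F.M a.1 := by
  rw [Frame.L, Fintype.linearCombination_apply_single]

theorem Frame.L_apply (F : Frame K D n c f) {e : ℕ} (b : Ex n e → D) :
    F.L e b = ∑ a : Ex n e, b a • F.M a.1 := by
  rw [Frame.L, Fintype.linearCombination_apply]

theorem Frame.M_zero (F : Frame K D n c f) : F.M 0 = 1 := mon_zero F.g n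

theorem sx_zero (s : Fin n) : sx c s 0 = 0 := by simp [sx, par]

theorem Frame.M_mem_range (F : Frame K D n c f) {e : ℕ} {a : Fin n →₀ ℕ} (h : a.degree = e) :
    F.M a ∈ LinearMap.range (F.L e) := by
  classical
  exact ⟨Pi.single ⟨a, h⟩ 1, by rw [F.L_single, one_smul]⟩

theorem Frame.range_mul_g (F : Frame K D n c f) {e : ℕ} {x : AD D n}
    (hx : x ∈ LinearMap.range (F.L e)) (s : Fin n) :
    x * F.g s ∈ LinearMap.range (F.L (e + 1)) := by
  obtain ⟨b, rfl⟩ := hx
  rw [F.L_apply, Finset.sum_mul]
  refine Submodule.sum_mem _ fun a _ => ?_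
  rw [smul_mul, F.M_mul]
  exact Submodule.smul_mem _ _ (Submodule.smul_mem _ _
    (F.M_mem_range (by rw [map_add, Finsupp.degree_single, a.2])))

/-- The map from rows to linear forms. -/
def linL (n : ℕ) : (Fin n → D) →ₗ[D] AD D n where
  toFun r := lin r
  map_add' a b := by simp [lin, add_smul, Finset.sum_add_distrib]
  map_smul' d a := by simp [lin, Finset.smul_sum, smul_smul]

theorem Frame.g_mem (F : Frame K D n c f) (u : Fin n) : F.g u ∈ LinearMap.range (F.L 1) := by
  have h := F.M_mul 0 u
  rw [F.M_zero, one_mul, sx_zero, pow_zero, one_smul, zero_add] at h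
  rw [h]
  exact F.M_mem_range (Finsupp.degree_single _ _)

theorem Frame.lin_mem (F : Frame K D n c f) (r : Fin n → D) :
    lin r ∈ LinearMap.range (F.L 1) := by
  have h : Submodule.span D (Set.range F.G) ≤ (LinearMap.range (F.L 1)).comap (linL n) := by
    refine Submodule.span_le.2 ?_
    rintro _ ⟨u, rfl⟩
    exact F.g_mem u
  exact h (F.span ▸ Submodule.mem_top)

theorem Frame.xv_mul_M (F : Frame K D n c f) (j : Fin n) (a : Fin n →₀ ℕ) :
    xv j * F.M a ∈ LinearMap.range (F.L (a.degree + 1)) := by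
  have h := mon_induction F.g (P := fun e x => xv j * x ∈ LinearMap.range (F.L (e + 1))) ?_ ?_ n a
  · have e1 : ∑ u ∈ Finset.univ.filter (fun u : Fin n => u.1 < n), a u = a.degree := by
      rw [Finsupp.degree_eq_sum, Finset.filter_true_of_mem (fun u _ => u.2)]
    rw [e1] at h
    exact h
  · rw [mul_one]
    have : (xv j : AD D n) = lin (Pi.single j 1) := by
      simp [lin, Pi.single_apply, ite_smul]
    rw [this]
    exact F.lin_mem _
  · intro k x s hx
    rw [← mul_assoc]
    exact F.range_mul_g hx s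

theorem Frame.single_mem (F : Frame K D n c f) : ∀ (e : ℕ) (a : Fin n →₀ ℕ), a.degree = e →
    (AddMonoidAlgebra.single a 1 : AD D n) ∈ LinearMap.range (F.L e)
  | 0, a, h => by
    rw [(Finsupp.degree_eq_zero_iff a).1 h]
    have := F.M_mem_range (map_zero Finsupp.degree)
    rwa [F.M_zero] at this
  | e + 1, a, h => by
    rw [Finsupp.degree_eq_sum] at h
    obtain ⟨j, -, hj⟩ := Finset.exists_ne_zero_of_sum_ne_zero (h.trans_ne (Nat.succ_ne_zero e))
    rw [← Finsupp.degree_eq_sum] at h
    have hle : Finsupp.single j 1 ≤ a := Finsupp.single_le_iff.2 (Nat.one_le_iff_ne_zero.2 hj)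
    have ha : a = Finsupp.single j 1 + (a - Finsupp.single j 1) := (add_tsub_cancel_of_le hle).symm
    have hd : (a - Finsupp.single j 1).degree = e := by
      rw [ha, map_add, Finsupp.degree_single] at h
      omega
    obtain ⟨b, hb⟩ := F.single_mem e _ hd
    have h2 : (AddMonoidAlgebra.single a 1 : AD D n) = xv j * F.L e b := by
      rw [hb, xv, AddMonoidAlgebra.single_mul_single, ← ha, one_mul]
    rw [h2, F.L_apply, Finset.mul_sum]
    refine Submodule.sum_mem _ fun x _ => ?_
    rw [(xv_commute j _).eq, smul_mul, ← (xv_commute j (F.M x.1)).eq]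
    refine Submodule.smul_mem _ _ ?_
    have := F.xv_mul_M j x.1
    rwa [x.2] at this

theorem Frame.M_mem_full (F : Frame K D n c f) (a : Fin n →₀ ℕ) :
    F.M a ∈ full D n a.degree := by
  have h := mon_induction F.g (P := fun e x => x ∈ full D n e)
    (single_mem_full 0 1 (map_zero _)) (fun k x s hx => full_mul_lin hx _) n a
  have e1 : ∑ u ∈ Finset.univ.filter (fun u : Fin n => u.1 < n), a u = a.degree := by
    rw [Finsupp.degree_eq_sum, Finset.filter_true_of_mem (fun u _ => u.2)]
  rwa [e1] at h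

theorem Frame.range_L (F : Frame K D n c f) (e : ℕ) : LinearMap.range (F.L e) = full D n e := by
  apply le_antisymm
  · rw [Frame.L, Fintype.range_linearCombination]
    refine Submodule.span_le.2 ?_
    rintro _ ⟨a, rfl⟩
    have h := F.M_mem_full a.1
    rwa [a.2] at h
  · refine Submodule.span_le.2 ?_
    rintro _ ⟨a, rfl⟩
    exact F.single_mem e a.1 a.2

theorem Frame.L_injective (F : Frame K D n c f) (e : ℕ) : Function.Injective (F.L e) := by
  have h := (F.L e).finrank_range_add_finrank_ker
  rw [F.range_L, finrank_full, Module.finrank_pi] at h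
  rw [← LinearMap.ker_eq_bot, ← Submodule.finrank_eq_zero]
  omega

/-- The `D`-span of the degree `e` part of an ideal. -/
def idD (D : Type*) [DivisionRing D] [Algebra K D] (I : Ideal (MvPolynomial (Fin n) K)) (e : ℕ) :
    Submodule D (AD D n) :=
  Submodule.span D ((inc : MvPolynomial (Fin n) K →+* AD D n) ''
    ↑(I.restrictScalars K ⊓ homogeneousSubmodule (Fin n) K e))

theorem inc_mem_full {p : MvPolynomial (Fin n) K} {e : ℕ} (hp : p.IsHomogeneous e) :
    (inc p : AD D n) ∈ full D n e := by
  rw [p.as_sum, map_sum]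
  refine Submodule.sum_mem _ fun a ha => ?_
  rw [inc_monomial]
  refine single_mem_full _ _ ?_
  rw [Finsupp.degree_eq_weight_one]
  exact hp (mem_support_iff.1 ha)

theorem idD_le_full (I : Ideal (MvPolynomial (Fin n) K)) (e : ℕ) : idD D I e ≤ full D n e := by
  refine Submodule.span_le.2 ?_
  rintro _ ⟨p, hp, rfl⟩
  exact inc_mem_full hp.2

theorem idD_mul_lin (I : Ideal (MvPolynomial (Fin n) K)) {e : ℕ} {x : AD D n}
    (hx : x ∈ idD D I e) (r : Fin n → D) : x * lin r ∈ idD D I (e + 1) := by
  induction hx using Submodule.span_induction with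
  | mem y hy =>
    obtain ⟨p, hp, rfl⟩ := hy
    rw [lin, Finset.mul_sum]
    refine Submodule.sum_mem _ fun j _ => ?_
    rw [(inc_commute p (r j • xv j)).eq, smul_mul, ← inc_X (K := K), ← map_mul]
    refine Submodule.smul_mem _ _ (Submodule.subset_span ⟨_, ⟨I.mul_mem_left _ hp.1, ?_⟩, rfl⟩)
    rw [mul_comm]
    exact hp.2.mul (isHomogeneous_X K j)
  | zero => rw [zero_mul]; exact zero_mem _
  | add y z _ _ hy hz => rw [add_mul]; exact add_mem hy hz
  | smul d y _ hy => rw [smul_mul]; exact Submodule.smul_mem _ _ hy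

instance piece_finite (I : Ideal (MvPolynomial (Fin n) K)) (e : ℕ) :
    Module.Finite K (I.restrictScalars K ⊓ homogeneousSubmodule (Fin n) K e :
      Submodule K (MvPolynomial (Fin n) K)) :=
  have : Module.Finite K (homogeneousSubmodule (Fin n) K e) :=
    Module.Finite.iff_fg.2 (homogeneousSubmodule_fg (Fin n) K e)
  Submodule.finiteDimensional_inf_right _ _

theorem finrank_idD (I : Ideal (MvPolynomial (Fin n) K)) (e : ℕ) :
    Module.finrank D (idD D I e) = Module.finrank K
      (I.restrictScalars K ⊓ homogeneousSubmodule (Fin n) K e :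
        Submodule K (MvPolynomial (Fin n) K)) := by
  classical
  set P := (I.restrictScalars K ⊓ homogeneousSubmodule (Fin n) K e :
    Submodule K (MvPolynomial (Fin n) K))
  let b := Module.finBasis K P
  let v : Fin (Module.finrank K P) → AD D n := fun i => inc (b i).1
  have hsp : idD D I e = Submodule.span D (Set.range v) := by
    refine le_antisymm (Submodule.span_le.2 ?_) (Submodule.span_le.2 ?_)
    · rintro _ ⟨p, hp, rfl⟩
      have h := congrArg Subtype.val (b.sum_repr ⟨p, hp⟩)
      simp only [Submodule.coe_sum, Submodule.coe_smul] at h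
      rw [← h, map_sum]
      refine Submodule.sum_mem _ fun i _ => ?_
      rw [inc_smul]
      exact Submodule.smul_mem _ _ (Submodule.subset_span ⟨i, rfl⟩)
    · rintro _ ⟨i, rfl⟩
      exact Submodule.subset_span ⟨_, (b i).2, rfl⟩
  rw [hsp, finrank_span_eq_card, Fintype.card_fin]
  refine LinearIndependent.of_comp (coeffL n e) ?_
  let w : Fin (Module.finrank K P) → Ex n e → K := fun i a => coeff a.1 (b i).1
  have hv : (coeffL (D := D) n e ∘ v) = fun i a => algebraMap K D (w i a) := by
    funext i a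
    exact coeff_inc _ _
  rw [hv]
  refine linearIndependent_algebraMap w ?_
  let cK : P →ₗ[K] (Ex n e → K) :=
    LinearMap.pi fun a => (lcoeff K a.1).comp P.subtype
  have hcK : Function.Injective cK := by
    rw [← LinearMap.ker_eq_bot, LinearMap.ker_eq_bot']
    intro p hp
    apply Subtype.ext
    refine MvPolynomial.ext _ _ fun a => ?_
    by_cases ha : a.degree = e
    · simpa [cK] using congrFun hp ⟨a, ha⟩
    · rw [p.2.2.coeff_eq_zero ha]
      simp
  exact b.linearIndependent.map' cK (LinearMap.ker_eq_bot.2 hcK)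

/-- The part of the weight coming from the variables outside the sequence. -/
def zdeg (c : ℕ) (a : Fin n →₀ ℕ) : ℕ :=
  ∑ u ∈ Finset.univ.filter (fun u : Fin n => c ≤ u.1), a u

/-- The term order. -/
def wt (c : ℕ) (a : Fin n →₀ ℕ) : ℕ ×ₗ Lex (Fin n → ℕ) := toLex (zdeg c a, toLex ⇑a)

theorem wt_injective (c : ℕ) : Function.Injective (wt (n := n) c) := fun a b h =>
  DFunLike.coe_injective (congrArg ofLex (congrArg Prod.snd (congrArg ofLex h)))

theorem zdeg_add (c : ℕ) (a b : Fin n →₀ ℕ) : zdeg c (a + b) = zdeg c a + zdeg c b := by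
  simp [zdeg, Finset.sum_add_distrib]

theorem wt_add_lt {c : ℕ} {a b : Fin n →₀ ℕ} (h : wt c a < wt c b) (d : Fin n →₀ ℕ) :
    wt c (a + d) < wt c (b + d) := by
  rw [wt, wt, Prod.Lex.toLex_lt_toLex] at h ⊢
  rcases h with h | ⟨h1, h2⟩
  · left
    show zdeg c (a + d) < zdeg c (b + d)
    rw [zdeg_add, zdeg_add]
    exact Nat.add_lt_add_right h _
  · right
    refine ⟨?_, ?_⟩
    · show zdeg c (a + d) = zdeg c (b + d)
      rw [zdeg_add, zdeg_add]
      exact congrArg (· + _) h1
    · show toLex (⇑a + ⇑d) < toLex (⇑b + ⇑d)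
      obtain ⟨i, hi, hlt⟩ := h2
      exact ⟨i, fun j hj => congrArg (· + d j) (hi j hj), Nat.add_lt_add_right hlt _⟩

theorem wt_lt_of_add {c : ℕ} {a b d : Fin n →₀ ℕ} (h : wt c (a + d) < wt c (b + d)) :
    wt c a < wt c b := by
  rcases lt_trichotomy (wt c a) (wt c b) with h' | h' | h'
  · exact h'
  · rw [wt_injective c h'] at h; exact absurd h (lt_irrefl _)
  · exact absurd h (lt_asymm (wt_add_lt h' d))

/-- Coordinates of an ideal in the monomial basis. -/
def Frame.idc (F : Frame K D n c f) (I : Ideal (MvPolynomial (Fin n) K)) (e : ℕ) :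
    Submodule D (Ex n e → D) := (idD D I e).comap (F.L e)

theorem Frame.finrank_idc (F : Frame K D n c f) (I : Ideal (MvPolynomial (Fin n) K)) (e : ℕ) :
    Module.finrank D (F.idc I e) = Module.finrank K
      (I.restrictScalars K ⊓ homogeneousSubmodule (Fin n) K e :
        Submodule K (MvPolynomial (Fin n) K)) := by
  rw [← finrank_idD (D := D) I e]
  refine LinearEquiv.finrank_eq (Submodule.equivMapOfInjective _ (F.L_injective e) _ ≪≫ₗ
    LinearEquiv.ofEq _ _ ?_)
  rw [Frame.idc, Submodule.map_comap_eq, F.range_L, inf_eq_right.2 (idD_le_full I e)]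

/-- The leading exponents of an ideal. -/
def Frame.lead (F : Frame K D n c f) (I : Ideal (MvPolynomial (Fin n) K)) :
    Set (Fin n →₀ ℕ) :=
  {a | Piv (fun b : Ex n a.degree => wt c b.1) (F.idc I a.degree) ⟨a, rfl⟩}

theorem Frame.mem_lead (F : Frame K D n c f) (I : Ideal (MvPolynomial (Fin n) K)) {e : ℕ}
    (a : Ex n e) : a.1 ∈ F.lead I ↔ Piv (fun b : Ex n e => wt c b.1) (F.idc I e) a := by
  obtain ⟨a, rfl⟩ := a
  rfl

theorem Frame.ncard_lead (F : Frame K D n c f) (I : Ideal (MvPolynomial (Fin n) K)) (e : ℕ) :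
    {a ∈ F.lead I | a.degree = e}.ncard = Module.finrank K
      (I.restrictScalars K ⊓ homogeneousSubmodule (Fin n) K e :
        Submodule K (MvPolynomial (Fin n) K)) := by
  rw [← F.finrank_idc I e, ← ncard_piv (wt := fun b : Ex n e => wt c b.1)
    (fun a b h => Subtype.ext (wt_injective c h)) (F.idc I e)]
  rw [← Set.ncard_image_of_injective _ Subtype.val_injective]
  congr 1
  ext a
  simp only [Set.mem_ofPred_eq, Set.mem_image]
  constructor
  · rintro ⟨h1, h2⟩
    exact ⟨⟨a, h2⟩, (F.mem_lead I ⟨a, h2⟩).1 h1, rfl⟩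
  · rintro ⟨b, hb, rfl⟩
    exact ⟨(F.mem_lead I b).2 hb, b.2⟩

theorem Frame.lead_succ (F : Frame K D n c f) (I : Ideal (MvPolynomial (Fin n) K))
    {a : Fin n →₀ ℕ} (ha : a ∈ F.lead I) (s : Fin n) : a + Finsupp.single s 1 ∈ F.lead I := by
  classical
  obtain ⟨b, hb, hba, hlow⟩ := ha
  have hsh : ∀ x : Ex n a.degree, (x.1 + Finsupp.single s 1).degree = a.degree + 1 := fun x => by
    rw [map_add, Finsupp.degree_single, x.2]
  let sh : Ex n a.degree → Ex n (a.degree + 1) := fun x => ⟨_, hsh x⟩
  let b' : Ex n (a.degree + 1) → D :=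
    ∑ x, Pi.single (sh x) (b x * (-1) ^ sx c s x.1)
  refine (F.mem_lead I (sh ⟨a, rfl⟩)).2 ⟨b', ?_, ?_, ?_⟩
  · show F.L (a.degree + 1) b' ∈ idD D I (a.degree + 1)
    have e1 : F.L (a.degree + 1) b' = F.L a.degree b * F.g s := by
      simp only [b', map_sum, F.L_single]
      rw [F.L_apply, Finset.sum_mul]
      refine Finset.sum_congr rfl fun x _ => ?_
      rw [smul_mul, F.M_mul, smul_smul]
    rw [e1]
    exact idD_mul_lin I hb (F.G s)
  · have hinj : ∀ x, sh x = sh ⟨a, rfl⟩ → x = ⟨a, rfl⟩ := fun x h =>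
      Subtype.ext (add_right_cancel (congrArg Subtype.val h))
    simp only [b', Finset.sum_apply]
    rw [Finset.sum_eq_single (⟨a, rfl⟩ : Ex n a.degree)
      (fun x _ hx => Pi.single_eq_of_ne (fun h => hx (hinj x h.symm)) _) (by simp),
      Pi.single_eq_same]
    exact mul_ne_zero hba (pow_ne_zero _ (neg_ne_zero.2 one_ne_zero))
  · intro k hk
    simp only [b', Finset.sum_apply]
    refine Finset.sum_eq_zero fun x _ => ?_
    by_cases hxk : k = sh x
    · subst hxk
      rw [Pi.single_eq_same, hlow x (wt_lt_of_add hk), zero_mul]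
    · exact Pi.single_eq_of_ne hxk _

theorem Frame.lead_upper (F : Frame K D n c f) (I : Ideal (MvPolynomial (Fin n) K))
    {a b : Fin n →₀ ℕ} (ha : a ∈ F.lead I) (hab : a ≤ b) : b ∈ F.lead I := by
  obtain ⟨d, rfl⟩ := exists_add_of_le hab
  clear hab
  induction d using Finsupp.induction_linear generalizing a with
  | zero => simpa using ha
  | add x y hx hy =>
    rw [← add_assoc]
    exact hy (hx ha)
  | single s k =>
    induction k with
    | zero => simpa using ha
    | succ k ih =>
      rw [Finsupp.single_add, ← add_assoc]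
      exact F.lead_succ I ih s

theorem Frame.sq_mem_lead (F : Frame K D n c f) (I : Ideal (MvPolynomial (Fin n) K))
    (hf : ∀ t, (f t).IsHomogeneous 2) (hfI : ∀ t, f t ∈ I) (s : Fin n) (hs : s.1 < c) :
    Finsupp.single s 2 ∈ F.lead I := by
  classical
  obtain ⟨a, r, hsq⟩ := F.sq s hs
  let Z : Submodule D (Ex n 2 → D) :=
    ⨅ b : Ex n 2, ⨅ _ : zdeg c b.1 = 0, LinearMap.ker (LinearMap.proj b)
  have hz : ∑ u ∈ Finset.univ.filter (fun u : Fin n => c ≤ u.1), lin (r u) * F.g u ∈ Z.map (F.L 2) := by
    refine Submodule.sum_mem _ fun u hu => ?_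
    simp only [Finset.mem_filter, Finset.mem_univ, true_and] at hu
    obtain ⟨b, hb⟩ := F.lin_mem (r u)
    rw [← hb, F.L_apply, Finset.sum_mul]
    refine Submodule.sum_mem _ fun w _ => ?_
    obtain ⟨σ, hσ⟩ : ∃ σ : D, F.M w.1 * F.g u = σ • F.M (w.1 + Finsupp.single u 1) :=
      ⟨_, F.M_mul _ u⟩
    rw [smul_mul, hσ, smul_smul]
    have hd : (w.1 + Finsupp.single u 1).degree = 2 := by
      rw [map_add, Finsupp.degree_single, w.2]
    refine Submodule.smul_mem _ _ ⟨Pi.single ⟨_, hd⟩ 1, ?_, ?_⟩
    · simp only [Z, SetLike.mem_coe, Submodule.mem_iInf, LinearMap.mem_ker, LinearMap.proj_apply]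
      intro x hx
      refine Pi.single_eq_of_ne ?_ _
      rintro rfl
      rw [zdeg_add] at hx
      have : 1 ≤ zdeg c (Finsupp.single u 1) := by
        simp only [zdeg]
        refine le_trans ?_ (Finset.single_le_sum (f := fun v => (Finsupp.single u 1) v)
          (fun v _ => Nat.zero_le _) (Finset.mem_filter.2 ⟨Finset.mem_univ u, hu⟩))
        simp
      omega
    · show Fintype.linearCombination D (fun a : Ex n 2 => F.M a.1) _ = _
      rw [Fintype.linearCombination_apply_single, one_smul]
  obtain ⟨z, hzZ, hzL⟩ := hz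
  have h2 : (Finsupp.single s 2).degree = 2 := Finsupp.degree_single _ _
  have hMs : F.g s * F.g s = F.M (Finsupp.single s 2) := by
    have h := F.M_mul 0 s
    rw [F.M_zero, one_mul, sx_zero, pow_zero, one_smul, zero_add] at h
    have h' := F.M_mul (Finsupp.single s 1) s
    rw [← h, ← Finsupp.single_add] at h'
    rw [h']
    have : sx c s (Finsupp.single s 1) = 0 := by
      unfold sx par
      refine Finset.sum_eq_zero fun u hu => ?_
      simp only [Finset.mem_filter] at hu
      simp [Finsupp.single_eq_of_ne hu.2.1.ne']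
    rw [this, pow_zero, one_smul]
  let v : Ex n 2 → D := Pi.single ⟨_, h2⟩ 1 - z
  have hzero : zdeg c (Finsupp.single s 2) = 0 := by
    unfold zdeg
    refine Finset.sum_eq_zero fun u hu => ?_
    simp only [Finset.mem_filter] at hu
    exact Finsupp.single_eq_of_ne (fun h => by subst h; omega)
  simp only [Z, Submodule.mem_iInf, SetLike.mem_coe, LinearMap.mem_ker, LinearMap.proj_apply] at hzZ
  refine (F.mem_lead I (e := 2) ⟨_, h2⟩).2 ⟨v, ?_, ?_, ?_⟩
  · show F.L 2 v ∈ idD D I 2
    rw [map_sub, hzL, F.L_single, one_smul, ← hMs]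
    show lin (F.G s) * lin (F.G s) - ∑ u ∈ _, lin (r u) * lin (F.G u) ∈ _
    rw [hsq, add_sub_cancel_right]
    exact Submodule.sum_mem _ fun t _ =>
      Submodule.smul_mem _ _ (Submodule.subset_span ⟨_, ⟨hfI t, hf t⟩, rfl⟩)
  · simp only [v, Pi.sub_apply, Pi.single_eq_same, hzZ (⟨_, h2⟩ : Ex n 2) hzero, sub_zero]
    exact one_ne_zero
  · intro x hx
    have hx0 : zdeg c x.1 = 0 := by
      simp only [wt, Prod.Lex.toLex_lt_toLex, hzero] at hx
      rcases hx with h | h
      · exact absurd h (Nat.not_lt_zero _)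
      · exact h.1
    simp only [v, Pi.sub_apply, hzZ _ hx0, sub_zero]
    exact Pi.single_eq_of_ne (fun h => by subst h; exact lt_irrefl _ hx) _

end Vale.Agent.P200b
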