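import Vale.Agent.P200b.AD
import Vale.Agent.P200.Levels

/-!
Existence of frames for regular sequences of quadrics.
-/

noncomputable section

namespace Vale.Agent.P200b

open MvPolynomial Vale.Agent.P200

universe u

local instance (priority := 10000) quotCR {K : Type u} [Field K] {n : ℕ}
    (J : Ideal (MvPolynomial (Fin n) K)) : CommRing (MvPolynomial (Fin n) K ⧸ J) :=
  Ideal.Quotient.commRing J

/-- Coordinates in which the sequence stays regular after dropping the last variables. -/
theorem exists_coords {K : Type*} [Field K] [Infinite K] : ∀ (n c : ℕ) (hc : c ≤ n)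
    (f : Fin c → MvPolynomial (Fin n) K), (∀ i, (f i).IsHomogeneous 2) → StrongReg f →
    ∃ (y : Fin n → MvPolynomial (Fin n) K) (Fb : Fin c → MvPolynomial (Fin c) K),
      (∀ u, (y u).IsHomogeneous 1) ∧ (∀ j, X j ∈ Submodule.span K (Set.range y)) ∧
      (∀ t, (Fb t).IsHomogeneous 2) ∧ StrongReg Fb ∧
      ∀ t, f t - aeval (fun v => y (Fin.castLE hc v)) (Fb t) ∈
        Ideal.span (y '' {u : Fin n | c ≤ u.1}) := by
  intro n
  induction n with
  | zero =>
    intro c hc f hf hreg
    obtain rfl : c = 0 := by omega
    exact ⟨X, f, fun u => u.elim0, fun j => j.elim0, hf, hreg, fun t => t.elim0⟩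
  | succ m ih =>
    intro c hc f hf hreg
    rcases Nat.lt_or_ge c (m + 1) with hcm | hcm
    · obtain ⟨E, hE, hE', hreg'⟩ := exists_good_coord (by omega : c ≤ m) f hf hreg
      obtain ⟨y', Fb, hy', hsp', hFb, hFreg, hrel⟩ := ih c (by omega) _
        (fun i => res0_homogeneous (hE _ _ (hf i))) hreg'
      let φ : MvPolynomial (Fin m) K →ₐ[K] MvPolynomial (Fin (m + 1)) K :=
        (E.symm : MvPolynomial (Fin (m + 1)) K →ₐ[K] MvPolynomial (Fin (m + 1)) K).comp
          (rename Fin.succ)
      let y : Fin (m + 1) → MvPolynomial (Fin (m + 1)) K :=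
        Fin.snoc (fun u => φ (y' u)) (E.symm (X 0))
      have hlast : E.symm (X 0) ∈ Submodule.span K (Set.range y) :=
        Submodule.subset_span ⟨Fin.last m, by simp [y]⟩
      have hin : ∀ q ∈ Submodule.span K (Set.range y'), φ q ∈ Submodule.span K (Set.range y) := by
        intro q hq
        induction hq using Submodule.span_induction with
        | mem x hx =>
          obtain ⟨u, rfl⟩ := hx
          exact Submodule.subset_span ⟨u.castSucc, by simp [y]⟩
        | zero => simp
        | add a b _ _ ha hb => rw [map_add]; exact add_mem ha hb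
        | smul r a _ ha => rw [map_smul]; exact Submodule.smul_mem _ r ha
      refine ⟨y, Fb, fun u => ?_, fun j => ?_, hFb, hFreg, fun t => ?_⟩
      · induction u using Fin.lastCases with
        | last => simpa [y] using hE' _ _ (isHomogeneous_X K 0)
        | cast u => simpa [y, φ] using hE' _ _ (hy' u).rename_isHomogeneous
      · have h1 : E (X j) ∈ homogeneousSubmodule (Fin (m + 1)) K 1 := hE _ _ (isHomogeneous_X K j)
        rw [homogeneousSubmodule_one_eq_span_X] at h1
        have h2 : Submodule.span K (Set.range (X : Fin (m + 1) → MvPolynomial (Fin (m + 1)) K)) ≤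
            (Submodule.span K (Set.range y)).comap E.symm.toLinearMap := by
          refine Submodule.span_le.2 ?_
          rintro _ ⟨i, rfl⟩
          induction i using Fin.cases with
          | zero => exact hlast
          | succ i =>
            show E.symm (X i.succ) ∈ Submodule.span K (Set.range y)
            have h := hin _ (hsp' i)
            simpa [φ] using h
        simpa using h2 h1
      · have e1 : (fun v => y (Fin.castLE hc v)) = fun v => φ (y' (Fin.castLE (by omega) v)) := by
          funext v
          have : (Fin.castLE hc v : Fin (m + 1)) = (Fin.castLE (by omega : c ≤ m) v).castSucc := by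
            ext; simp
          rw [this]
          simp only [y, Fin.snoc_castSucc]
        rw [e1, ← comp_aeval_apply]
        have hy0 : E.symm (X 0) ∈ Ideal.span (y '' {u : Fin (m + 1) | c ≤ u.1}) :=
          Ideal.subset_span ⟨Fin.last m, (by simp; omega : c ≤ (Fin.last m).1), by simp [y]⟩
        have h2 : f t - φ (res0 m (E (f t))) ∈ Ideal.span (y '' {u : Fin (m + 1) | c ≤ u.1}) := by
          obtain ⟨r, hr⟩ := Ideal.mem_span_singleton'.1 (sub_res0_mem m (E (f t)))
          have : f t - φ (res0 m (E (f t))) = E.symm r * E.symm (X 0) := by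
            rw [← map_mul, hr, map_sub, E.symm_apply_apply]; rfl
          rw [this]
          exact Ideal.mul_mem_left _ _ hy0
        have h3 := Ideal.mem_map_of_mem φ (hrel t)
        rw [Ideal.map_span, map_sub] at h3
        have h4 : φ '' (y' '' {u : Fin m | c ≤ u.1}) ⊆ y '' {u : Fin (m + 1) | c ≤ u.1} := by
          rintro _ ⟨_, ⟨u, hu, rfl⟩, rfl⟩
          exact ⟨u.castSucc, by simpa using hu, by simp [y]⟩
        have h5 := add_mem h2 (Ideal.span_mono h4 h3)
        rwa [sub_add_sub_cancel] at h5
    · obtain rfl : c = m + 1 := by omega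
      refine ⟨X, f, fun u => isHomogeneous_X K u, fun j => Submodule.subset_span ⟨j, rfl⟩, hf, hreg,
        fun t => ?_⟩
      have : (fun v => (X (Fin.castLE hc v) : MvPolynomial (Fin (m + 1)) K)) = X := by
        funext v; simp
      rw [this, aeval_X_left_apply, sub_self]
      exact zero_mem _

/-- The square system: independent rows of anticommuting square roots. -/
theorem exists_square {K : Type u} [Field K] {c : ℕ} (Fb : Fin c → MvPolynomial (Fin c) K)
    (hf : ∀ t, (Fb t).IsHomogeneous 2) (hreg : StrongReg Fb) :
    ∃ (D : Type u) (_ : DivisionRing D) (_ : Algebra K D) (β : Fin c → Fin c → Fin c → K)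
      (e g : Fin c → Fin c → D),
      (∀ t, Fb t = ∑ v, ∑ w, β t v w • (X v * X w)) ∧
      (∀ i v, e i v * e i v = ∑ t, β t v v • g i t) ∧
      (∀ i v w, v ≠ w → e i v * e i w + e i w * e i v = ∑ t, (β t v w + β t w v) • g i t) ∧
      (∀ i j v w, i ≠ j → e i v * e j w + e j w * e i v = 0) ∧
      Submodule.span D (Set.range e) = ⊤ := by
  classical
  have hβ : ∀ t, ∃ β : Fin c → Fin c → K, Fb t = ∑ v, ∑ w, β v w • (X v * X w) := by
    intro t
    have h := homogeneous_le_span_prod 2 ((mem_homogeneousSubmodule _ _).2 (hf t))
    obtain ⟨b, hb⟩ := (Submodule.mem_span_range_iff_exists_fun K).1 h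
    refine ⟨fun v w => b ![v, w], ?_⟩
    rw [← hb, ← Equiv.sum_comp (finTwoArrowEquiv (Fin c)).symm, Fintype.sum_prod_type]
    refine Finset.sum_congr rfl fun v _ => Finset.sum_congr rfl fun w _ => ?_
    simp [Fin.prod_univ_two]
  choose β hβ using hβ
  obtain ⟨D, instD, instA, e, g, esq, ein, eout, hnd⟩ := exists_sys Fb hf hreg β hβ
  refine ⟨D, instD, instA, β, e, g, hβ, esq, ein, eout, ?_⟩
  set J := Ideal.span (Set.range Fb)
  have hfJ : ∀ t, Fb t ∈ J := fun t => Ideal.subset_span ⟨t, rfl⟩
  have hsq := ell_sq J Fb hfJ β hβ e g esq ein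
  have hanti := ell_anti J e eout
  have hdim : ∀ j, Module.finrank K (quotPiece J j) = c.choose j :=
    finrank_quotPiece_full (Fintype.card_fin c) hf hreg.ne_zero hreg
  have hkill : ∀ b : D, b • prodL J e Finset.univ = 0 → b = 0 := by
    intro b hb
    by_contra hb0
    have hne : quotPiece J c ≠ ⊥ := by
      intro h
      have := hdim c
      rw [h, finrank_bot, Nat.choose_self] at this
      omega
    obtain ⟨a, ha, ha0⟩ := (Submodule.ne_bot_iff _).1 hne
    obtain ⟨lam, hlam⟩ := not_forall.1 (mt (Module.forall_dual_apply_eq_zero_iff K a).1 ha0)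
    have h := congrArg (applyR J lam) hb
    rw [map_smul, map_zero, smul_eq_mul, mul_eq_zero] at h
    have h := h.resolve_left hb0
    rw [prodL_univ, pr_range_expand J e c le_rfl, map_sum] at h
    simp only [applyR_tmul, Fin.castLE_rfl, id_eq] at h
    have hμ := hnd _ h
    apply hlam
    obtain ⟨p, hp, rfl⟩ := ha
    have h' := homogeneous_le_span_prod c hp
    have hker : Submodule.span K (Set.range fun v : Fin c → Fin c => ∏ i, (X (v i) :
        MvPolynomial (Fin c) K)) ≤ LinearMap.ker (lam ∘ₗ (Ideal.Quotient.mkₐ K J).toLinearMap) :=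
      Submodule.span_le.2 (by rintro _ ⟨v, rfl⟩; exact congrFun hμ v)
    exact hker h'
  have hinj := prodL_injective J e hsq hanti hkill
  have hone : prodL J e ∅ = 1 := by
    have h : ∀ m, pr (ell J e) m ∅ = 1 := by
      intro m; induction m with
      | zero => rfl
      | succ m ih => simp [pr, ih]
    simp only [prodL, Finset.map_empty, h]
  have hsingle : ∀ s : Fin c, ∃ ε : D, ε ≠ 0 ∧ ell J e s = ε • prodL J e {s} := by
    intro s
    have h := (prodL_mul_ell J e hsq hanti ∅ s).2 (Finset.notMem_empty s)
    rw [hone, one_mul, insert_empty_eq] at h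
    rcases h with h | h
    · exact ⟨1, one_ne_zero, h.trans (one_smul D _).symm⟩
    · exact ⟨-1, neg_ne_zero.2 one_ne_zero, h.trans (neg_one_smul D _).symm⟩
  choose ε hε hεell using hsingle
  have hli : LinearIndependent D e := by
    rw [Fintype.linearIndependent_iff]
    intro a ha s0
    have h0 : ∑ s : Fin c, (a s * ε s) • prodL J e {s} = 0 := by
      calc ∑ s : Fin c, (a s * ε s) • prodL J e {s} = ∑ s : Fin c, a s • ell J e s :=
            Finset.sum_congr rfl fun s _ => by rw [mul_smul, hεell s]
        _ = ∑ v, (∑ s, a s * e s v) ⊗ₜ[K] Ideal.Quotient.mk J (X v) := by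
            simp only [ell_apply J e (Fin.is_lt _), Fin.eta, Finset.smul_sum, TensorProduct.smul_tmul',
              smul_eq_mul, TensorProduct.sum_tmul]
            exact Finset.sum_comm
        _ = 0 := Finset.sum_eq_zero fun v _ => by
            have := congrFun ha v
            simp only [Finset.sum_apply, Pi.smul_apply, smul_eq_mul, Pi.zero_apply] at this
            rw [this, TensorProduct.zero_tmul]
    let b : Finset (Fin c) → D := ∑ s : Fin c, Pi.single {s} (a s * ε s)
    have hb : Fintype.linearCombination D (prodL J e) b = 0 := by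
      simp only [b, map_sum, Fintype.linearCombination_apply_single]
      exact h0
    have hb0 := congrFun (hinj (hb.trans (map_zero _).symm)) {s0}
    simp only [b, Finset.sum_apply, Pi.zero_apply] at hb0
    rw [Finset.sum_eq_single s0 (fun s _ hs => Pi.single_eq_of_ne (by simpa using Ne.symm hs) _)
      (by simp), Pi.single_eq_same] at hb0
    exact (mul_eq_zero.1 hb0).resolve_right (hε s0)
  exact hli.span_eq_top_of_card_eq_finrank' (by rw [Module.finrank_pi])

theorem inc_linear {K D : Type*} [Field K] [DivisionRing D] [Algebra K D] {n : ℕ}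
    (p : MvPolynomial (Fin n) K) (hp : p.IsHomogeneous 1) :
    (inc p : AD D n) = lin (fun j => algebraMap K D (coeff (Finsupp.single j 1) p)) := by
  classical
  conv_lhs => rw [p.as_sum]
  rw [map_sum, lin]
  have hs : p.support ⊆ Finset.univ.image (fun j : Fin n => Finsupp.single j 1) := by
    intro a ha
    have h : a.degree = 1 := by
      rw [Finsupp.degree_eq_weight_one]
      exact hp (mem_support_iff.1 ha)
    rw [Finsupp.degree_eq_sum] at h
    obtain ⟨j, -, hj0⟩ := Finset.exists_ne_zero_of_sum_ne_zero (h.trans_ne one_ne_zero)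
    have hj : a = Finsupp.single j 1 := by
      ext u
      rw [Finsupp.single_apply]
      rw [← Finset.add_sum_erase _ _ (Finset.mem_univ j)] at h
      by_cases hu : j = u
      · subst hu; rw [if_pos rfl]; omega
      · rw [if_neg hu]
        have := Finset.single_le_sum (f := fun v => a v) (fun v _ => Nat.zero_le _)
          (Finset.mem_erase.2 ⟨Ne.symm hu, Finset.mem_univ u⟩)
        omega
    exact Finset.mem_image.2 ⟨j, Finset.mem_univ _, hj.symm⟩
  rw [Finset.sum_subset hs (fun a _ ha => by
    rw [notMem_support_iff.1 ha, map_zero, map_zero]),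
    Finset.sum_image (Function.Injective.injOn (Finsupp.single_left_injective one_ne_zero))]
  refine Finset.sum_congr rfl fun j _ => ?_
  rw [inc_monomial, xv, AddMonoidAlgebra.smul_single, smul_eq_mul, mul_one]

theorem exists_frame {K : Type u} [Field K] {n c : ℕ} (hc : c ≤ n)
    (f : Fin c → MvPolynomial (Fin n) K) (hf : ∀ i, (f i).IsHomogeneous 2) (hreg : StrongReg f) :
    ∃ (D : Type u) (_ : DivisionRing D) (_ : Algebra K D), Nonempty (Frame K D n c f) := by
  classical
  let L := RatFunc K
  let ι : MvPolynomial (Fin n) K →+* MvPolynomial (Fin n) L := map (algebraMap K L)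
  have : Infinite L :=
    Infinite.of_injective _ (IsFractionRing.injective (Polynomial K) (RatFunc K))
  obtain ⟨y, Fb, hy, hspan, hFb, hFreg, hrel⟩ :=
    exists_coords n c hc (fun i => ι (f i)) (fun i => (hf i).map _) hreg.extend
  obtain ⟨D, instD, instA, β, e, g, hβ, esq, ein, eout, hetop⟩ := exists_square Fb hFb hFreg
  let instK : Algebra K D := Algebra.compHom D (algebraMap K L)
  refine ⟨D, instD, instK, ⟨?_⟩⟩
  have hinc : ∀ p : MvPolynomial (Fin n) K,
      @inc K D _ instD instK n p = @inc L D _ instD instA n (ι p) := by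
    intro p
    refine AddMonoidAlgebra.ext ?_
    ext a
    rw [coeff_inc, coeff_inc]
    simp only [ι, coeff_map]
    rfl
  let row : Fin n → Fin n → D := fun u j => algebraMap L D (coeff (Finsupp.single j 1) (y u))
  let G : Fin n → Fin n → D := fun u j =>
    if h : u.1 < c then ∑ v, e ⟨u, h⟩ v * row (Fin.castLE hc v) j else row u j
  have hlin : ∀ u, (@inc L D _ instD instA n (y u)) = lin (row u) := fun u => inc_linear (y u) (hy u)
  have hrc : ∀ u j (x : D), x * row u j = row u j * x := fun u j x => (Algebra.commutes _ x).symm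
  refine { G := G, comm := ?_, span := ?_, sq := ?_ }
  · intro u t hut j k
    simp only [G, ex]
    by_cases hu : u.1 < c
    · by_cases ht : t.1 < c
      · rw [dif_pos hu, dif_pos ht, if_pos ⟨hu, ht⟩, pow_one, neg_one_mul, ← add_eq_zero_iff_eq_neg,
          Finset.sum_mul_sum, Finset.sum_mul_sum, Finset.sum_comm, ← Finset.sum_add_distrib]
        refine Finset.sum_eq_zero fun v _ => ?_
        rw [← Finset.sum_add_distrib]
        refine Finset.sum_eq_zero fun w _ => ?_
        have hne : (⟨u, hu⟩ : Fin c) ≠ ⟨t, ht⟩ := fun h => hut (Fin.ext (Fin.mk.inj_iff.1 h))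
        have h1 : ∀ (x1 x2 : D) (a b : Fin n) (i k' : Fin n),
            x1 * row a i * (x2 * row b k') = x1 * x2 * (row a i * row b k') := fun x1 x2 a b i k' => by
          rw [mul_assoc x1 (row a i), ← mul_assoc (row a i) x2, ← hrc a i x2, mul_assoc x2,
            ← mul_assoc x1]
        rw [h1, h1, hrc (Fin.castLE hc w) j (row _ _), ← add_mul,
          add_comm, eout _ _ _ _ hne, zero_mul]
      · rw [dif_pos hu, dif_neg ht, if_neg (fun h => ht h.2), pow_zero, one_mul]
        exact (hrc t j _).symm
    · rw [dif_neg hu, if_neg (fun h => hu h.1), pow_zero, one_mul]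
      exact hrc u k _
  · set P := Submodule.span D (Set.range G) with hP
    have hrow : ∀ u, row u ∈ P := by
      intro u
      by_cases hu : u.1 < c
      · let Lm : (Fin c → D) →ₗ[D] (Fin n → D) :=
          { toFun := fun a j => ∑ v, a v * row (Fin.castLE hc v) j
            map_add' := fun a b => by funext j; simp [add_mul, Finset.sum_add_distrib]
            map_smul' := fun r a => by funext j; simp [Finset.mul_sum, mul_assoc] }
        have h1 : Submodule.span D (Set.range e) ≤ P.comap Lm := by
          refine Submodule.span_le.2 ?_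
          rintro _ ⟨s, rfl⟩
          refine Submodule.subset_span ⟨Fin.castLE hc s, ?_⟩
          funext j
          simp [G, Lm]
        have h2 := h1 (hetop ▸ Submodule.mem_top : (Pi.single ⟨u, hu⟩ 1 : Fin c → D) ∈ _)
        rw [Submodule.mem_comap] at h2
        have e2 : Lm (Pi.single ⟨u, hu⟩ 1) = row u := by
          funext j
          simp [Lm, Pi.single_apply]
        rwa [e2] at h2
      · refine Submodule.subset_span ⟨u, ?_⟩
        funext j
        simp [G, hu]
    rw [eq_top_iff]
    intro a _
    have ea : a = ∑ j, a j • (Pi.single j 1 : Fin n → D) := by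
      funext i; simp [Finset.sum_apply, Pi.single_apply]
    rw [ea]
    refine Submodule.sum_mem _ fun j _ => Submodule.smul_mem _ _ ?_
    obtain ⟨b, hb⟩ := (Submodule.mem_span_range_iff_exists_fun L).1 (hspan j)
    have e3 : (Pi.single j 1 : Fin n → D) = ∑ u, algebraMap L D (b u) • row u := by
      funext i
      have h := congrArg (coeff (Finsupp.single i 1)) hb
      simp only [coeff_sum, coeff_smul, smul_eq_mul, coeff_X] at h
      simp only [Finset.sum_apply, Pi.smul_apply, smul_eq_mul, row, ← map_mul, ← map_sum, h]
      by_cases hij : i = j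
      · subst hij; simp
      · simp [Finsupp.single_left_inj, Ne.symm hij]
    rw [e3]
    exact Submodule.sum_mem _ fun u _ => Submodule.smul_mem _ _ (hrow u)
  · intro s hs
    have hG : lin (G s) = ∑ v, e ⟨s, hs⟩ v • (@inc L D _ instD instA n (y (Fin.castLE hc v))) := by
      simp only [hlin, lin, Finset.smul_sum, smul_smul, G, dif_pos hs, Finset.sum_smul]
      exact Finset.sum_comm
    have hsq : lin (G s) * lin (G s) = ∑ t, g ⟨s, hs⟩ t •
        @inc L D _ instD instA n (aeval (fun v => y (Fin.castLE hc v)) (Fb t)) := by
      rw [hG, Finset.sum_mul_sum]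
      have e4 : ∀ (x x' : D) (p q : MvPolynomial (Fin n) L),
          x • (inc p : AD D n) * (x' • inc q) = (x * x') • inc (p * q) := fun x x' p q => by
        rw [smul_mul, (inc_commute p _).eq, smul_mul, smul_smul, map_mul, (inc_commute p _).eq]
      simp only [e4]
      rw [sum_sum_eq_of_symm _ (fun v w => (∑ t, algebraMap L D (β t v w) * g ⟨s, hs⟩ t) •
          (inc (y (Fin.castLE hc v) * y (Fin.castLE hc w)) : AD D n))
        (fun v => by simp only [esq, Algebra.smul_def])
        (fun v w hvw => by
          rw [mul_comm (y (Fin.castLE hc w)), ← add_smul, ← add_smul, ein _ v w hvw,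
            ← Finset.sum_add_distrib]
          simp only [Algebra.smul_def, map_add, add_mul])]
      simp only [Finset.sum_smul]
      rw [Finset.sum_congr rfl fun v _ => Finset.sum_comm, Finset.sum_comm]
      refine Finset.sum_congr rfl fun t _ => ?_
      conv_rhs => rw [hβ t]
      simp only [map_sum, map_smul, map_mul, aeval_X, inc_smul, Finset.smul_sum, smul_smul]
      refine Finset.sum_congr rfl fun v _ => Finset.sum_congr rfl fun w _ => ?_
      rw [Algebra.commutes]
    have hres : ∀ t, ∃ r : Fin n → MvPolynomial (Fin n) L, (∀ u, (r u).IsHomogeneous 1) ∧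
        ι (f t) - aeval (fun v => y (Fin.castLE hc v)) (Fb t) =
          ∑ u ∈ Finset.univ.filter (fun u : Fin n => c ≤ u.1), r u * y u := by
      intro t
      have h := hrel t
      obtain ⟨r0, hsupp, hr0⟩ := (Finsupp.mem_span_image_iff_linearCombination (R := MvPolynomial (Fin n) L)).1 h
      obtain ⟨r, hr⟩ : ∃ r : Fin n → MvPolynomial (Fin n) L,
          ∑ u ∈ Finset.univ.filter (fun u : Fin n => c ≤ u.1),
          r u * y u = ι (f t) - aeval (fun v => y (Fin.castLE hc v)) (Fb t) := by
        refine ⟨fun u => if c ≤ u.1 then r0 u else 0, ?_⟩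
        rw [← hr0, Finsupp.linearCombination_apply]
        simp only [smul_eq_mul]
        rw [Finsupp.sum, ← Finset.sum_subset (s₁ := r0.support)
          (s₂ := Finset.univ.filter (fun u : Fin n => c ≤ u.1))]
        · refine Finset.sum_congr rfl fun u hu => ?_
          rw [if_pos]
          have := hsupp hu
          simpa using this
        · intro u hu
          have := hsupp hu
          simpa using this
        · intro u _ hu
          simp [Finsupp.notMem_support_iff.1 hu]
      refine ⟨fun u => homogeneousComponent 1 (r u), fun u => homogeneousComponent_isHomogeneous 1 _, ?_⟩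
      have hh : (ι (f t) - aeval (fun v => y (Fin.castLE hc v)) (Fb t)).IsHomogeneous 2 := by
        refine IsHomogeneous.sub ((hf t).map _) ?_
        rw [hβ t, map_sum]
        refine IsHomogeneous.sum _ _ _ fun v _ => ?_
        rw [map_sum]
        refine IsHomogeneous.sum _ _ _ fun w _ => ?_
        rw [map_smul, map_mul, aeval_X, aeval_X]
        exact (homogeneousSubmodule (Fin n) L 2).smul_mem _ ((hy _).mul (hy _))
      have h2 := congrArg (homogeneousComponent 2) hr
      rw [map_sum, homogeneousComponent_eq_self hh] at h2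
      rw [← h2]
      refine Finset.sum_congr rfl fun u _ => ?_
      rw [homogeneousComponent_mul_homog (r u) (hy u), if_pos (by norm_num)]
    choose r hr hres using hres
    refine ⟨g ⟨s, hs⟩, fun u j => -∑ t, g ⟨s, hs⟩ t *
      algebraMap L D (coeff (Finsupp.single j 1) (r t u)), ?_⟩
    rw [hsq]
    have hG' : ∀ u ∈ Finset.univ.filter (fun u : Fin n => c ≤ u.1),
        lin (fun j => -∑ t, g ⟨s, hs⟩ t * algebraMap L D (coeff (Finsupp.single j 1) (r t u))) *
          lin (G u) = -∑ t, g ⟨s, hs⟩ t • @inc L D _ instD instA n (r t u * y u) := by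
      intro u hu
      simp only [Finset.mem_filter, Finset.mem_univ, true_and] at hu
      have eG : G u = row u := by funext j; simp [G, show ¬ u.1 < c by omega]
      rw [eG, ← hlin]
      have er : lin (fun j => -∑ t, g ⟨s, hs⟩ t * algebraMap L D (coeff (Finsupp.single j 1) (r t u))) =
          -∑ t, g ⟨s, hs⟩ t • @inc L D _ instD instA n (r t u) := by
        simp only [inc_linear _ (hr _ u), lin, Finset.smul_sum, smul_smul, neg_smul, Finset.sum_smul,
          Finset.sum_neg_distrib]
        rw [Finset.sum_comm]
      rw [er, neg_mul, Finset.sum_mul]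
      simp only [smul_mul, map_mul]
    rw [Finset.sum_congr rfl hG', Finset.sum_neg_distrib, Finset.sum_comm, ← sub_eq_add_neg,
      ← Finset.sum_sub_distrib]
    refine Finset.sum_congr rfl fun t _ => ?_
    rw [← Finset.smul_sum, ← smul_sub, hinc, ← map_sum, ← map_sub, ← hres t]
    congr 2
    abel

end Vale.Agent.P200b
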