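import Mathlib

/-!
Graded Betti numbers of a quotient of a polynomial ring, as homology of the Koszul complex.
-/

noncomputable section

namespace Vale.Agent.P200b

open MvPolynomial

variable {K : Type*} [Field K] {n : ℕ}

/-- The Koszul differential: `(d φ) T = ∑_{i ∉ T} (-1)^{|{t ∈ T | t < i}|} xᵢ φ (T ∪ {i})`. -/
def koszul : (Finset (Fin n) → MvPolynomial (Fin n) K) →ₗ[K]
    (Finset (Fin n) → MvPolynomial (Fin n) K) where
  toFun φ T := ∑ i ∈ Tᶜ, (-1 : MvPolynomial (Fin n) K) ^ (T.filter (· < i)).card * X i * φ (insert i T)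
  map_add' φ ψ := by
    funext T
    simp [mul_add, Finset.sum_add_distrib]
  map_smul' a φ := by
    funext T
    simp [Finset.smul_sum]

/-- Koszul chains of homological degree `p` and internal degree `j` with values in `I`. -/
def chains (I : Ideal (MvPolynomial (Fin n) K)) (p j : ℕ) :
    Submodule K (Finset (Fin n) → MvPolynomial (Fin n) K) :=
  Submodule.pi Set.univ fun T =>
    if T.card = p ∧ p ≤ j then I.restrictScalars K ⊓ homogeneousSubmodule (Fin n) K (j - p) else ⊥

/-- Lifts of the cycles of the Koszul complex on the quotient. -/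
def cycles (I : Ideal (MvPolynomial (Fin n) K)) (p j : ℕ) :
    Submodule K (Finset (Fin n) → MvPolynomial (Fin n) K) :=
  chains ⊤ p j ⊓ (Submodule.pi Set.univ fun _ => I.restrictScalars K).comap koszul

/-- Lifts of the boundaries of the Koszul complex on the quotient. -/
def boundaries (I : Ideal (MvPolynomial (Fin n) K)) (p j : ℕ) :
    Submodule K (Finset (Fin n) → MvPolynomial (Fin n) K) :=
  chains I p j ⊔ (chains ⊤ (p + 1) j).map koszul

/-- The graded Betti number `β_{p,j}` of the quotient by `I`. -/
def betti (I : Ideal (MvPolynomial (Fin n) K)) (p j : ℕ) : ℕ :=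
  Module.finrank K (cycles I p j) - Module.finrank K (boundaries I p j)

end Vale.Agent.P200b
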