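import Mathlib
import Vale.Agent.P200.CL

/-!
Lex segments have the largest pivot counts among stable families in a box.
-/

noncomputable section

namespace Vale.Agent.P200b.LPP

open Vale.Agent.P200

variable {m : ℕ}

/-- pivot condition -/
def piv (c : ℕ) (T : Finset (Fin m)) (w : Fin m → ℕ) : Prop :=
  ∃ k, k ∉ T ∧ 0 < w k ∧ ∀ t ∈ T, k < t → (t : ℕ) < c ∧ 0 < w t

open Classical in
/-- the number of pivot sets -/
def pivCount (c p : ℕ) (w : Fin m → ℕ) : ℕ :=
  ((Finset.univ.powersetCard p).filter fun T => piv c T w).card

/-- caps: squares on the first `c` coordinates, `B` on the others -/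
def capB (c B : ℕ) : Fin m → ℕ := fun i => if (i : ℕ) < c then 2 else B

theorem capB_castSucc (c B : ℕ) :
    (fun i : Fin m => capB c B i.castSucc) = capB c B := by
  funext i; simp [capB]

/-- casting sets to one more coordinate -/
def up (T : Finset (Fin m)) : Finset (Fin (m + 1)) := T.map Fin.castSuccEmb

theorem last_notMem_up (T : Finset (Fin m)) : Fin.last m ∉ up T := by
  simp [up]

theorem castSucc_mem_up {T : Finset (Fin m)} {i : Fin m} : i.castSucc ∈ up T ↔ i ∈ T := by
  simp [up]

theorem piv_up_zero (c : ℕ) (T : Finset (Fin m)) (w : Fin m → ℕ) :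
    piv c (up T) (Fin.snoc w 0) ↔ piv c T w := by
  constructor
  · rintro ⟨k, hk, hw, h⟩
    induction k using Fin.lastCases with
    | last => simp at hw
    | cast k =>
      refine ⟨k, fun h' => hk (castSucc_mem_up.2 h'), by simpa using hw, fun t ht hkt => ?_⟩
      simpa using h t.castSucc (castSucc_mem_up.2 ht) (by simpa using hkt)
  · rintro ⟨k, hk, hw, h⟩
    refine ⟨k.castSucc, fun h' => hk (castSucc_mem_up.1 h'), by simpa using hw, fun t ht hkt => ?_⟩
    induction t using Fin.lastCases with
    | last => exact absurd ht (last_notMem_up T)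
    | cast t => simpa using h t (castSucc_mem_up.1 ht) (by simpa using hkt)

theorem piv_up_pos (c : ℕ) (T : Finset (Fin m)) (w : Fin m → ℕ) {a : ℕ} (ha : 0 < a) :
    piv c (up T) (Fin.snoc w a) :=
  ⟨Fin.last m, last_notMem_up T, by simpa using ha,
    fun t _ hkt => absurd (Fin.le_last t) (not_le.2 hkt)⟩

theorem piv_insert_last (c : ℕ) (T : Finset (Fin m)) (w : Fin m → ℕ) (a : ℕ) :
    piv c (insert (Fin.last m) (up T)) (Fin.snoc w a) ↔ m < c ∧ 0 < a ∧ piv c T w := by
  constructor
  · rintro ⟨k, hk, hw, h⟩
    induction k using Fin.lastCases with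
    | last => exact absurd (Finset.mem_insert_self _ _) hk
    | cast k =>
      have h1 := h (Fin.last m) (Finset.mem_insert_self _ _) (Fin.castSucc_lt_last k)
      simp only [Fin.val_last, Fin.snoc_last] at h1
      refine ⟨h1.1, h1.2, k, fun h' => hk (Finset.mem_insert_of_mem (castSucc_mem_up.2 h')),
        by simpa using hw, fun t ht hkt => ?_⟩
      simpa using h t.castSucc (Finset.mem_insert_of_mem (castSucc_mem_up.2 ht)) (by simpa using hkt)
  · rintro ⟨hc, ha, k, hk, hw, h⟩
    refine ⟨k.castSucc, ?_, by simpa using hw, fun t ht hkt => ?_⟩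
    · simp [Fin.castSucc_ne_last, castSucc_mem_up, hk]
    induction t using Fin.lastCases with
    | last => simpa using ⟨hc, ha⟩
    | cast t =>
      rcases Finset.mem_insert.1 ht with h' | h'
      · exact absurd h' (Fin.castSucc_ne_last t)
      · simpa using h t (castSucc_mem_up.1 h') (by simpa using hkt)

theorem univ_eq_insert : (Finset.univ : Finset (Fin (m + 1))) =
    insert (Fin.last m) (up Finset.univ) := by
  ext i
  induction i using Fin.lastCases with
  | last => simp
  | cast i => simp [castSucc_mem_up]

theorem powersetCard_zero_eq (p : ℕ) :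
    (up (Finset.univ : Finset (Fin m))).powersetCard p =
      (Finset.univ.powersetCard p).image up := by
  unfold up
  rw [Finset.powersetCard_map, Finset.map_eq_image]
  rfl

theorem up_injective : Function.Injective (up (m := m)) :=
  fun _ _ h => Finset.map_injective _ h

theorem insert_up_injective :
    Function.Injective (insert (Fin.last m) ∘ up (m := m)) := by
  intro T T' h
  apply up_injective
  have h' := congrArg (fun s => s.erase (Fin.last m)) h
  simpa [Function.comp_apply, Finset.erase_insert (last_notMem_up T), Finset.erase_insert (last_notMem_up T')] using h'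

/-- The recursion of the pivot count in the last coordinate. -/
theorem pivCount_snoc (c p : ℕ) (w : Fin m → ℕ) (a : ℕ) :
    pivCount c p (Fin.snoc w a) =
      (if a = 0 then pivCount c p w else m.choose p) +
        (if 0 < a ∧ m < c ∧ 0 < p then pivCount c (p - 1) w else 0) := by
  classical
  have hlow : ∀ q, (((up (Finset.univ : Finset (Fin m))).powersetCard q).filter
      fun T => piv c T (Fin.snoc w a)).card = if a = 0 then pivCount c q w else m.choose q := by
    intro q
    rw [powersetCard_zero_eq, Finset.filter_image, Finset.card_image_of_injective _ up_injective]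
    by_cases ha : a = 0
    · subst ha
      rw [if_pos rfl]
      unfold pivCount
      congr 1
      exact Finset.filter_congr fun T _ => piv_up_zero c T w
    · rw [if_neg ha, Finset.filter_true_of_mem (fun T _ => piv_up_pos c T w (Nat.pos_of_ne_zero ha)),
        Finset.card_powersetCard, Finset.card_univ, Fintype.card_fin]
  rcases p with _ | p
  · rw [if_neg (show ¬(0 < a ∧ m < c ∧ 0 < 0) by omega), add_zero, ← hlow 0]
    simp only [pivCount, Finset.powersetCard_zero]
  · rw [pivCount, univ_eq_insert, Finset.powersetCard_succ_insert (last_notMem_up _),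
      Finset.filter_union, Finset.card_union_of_disjoint, hlow]
    · congr 1
      rw [powersetCard_zero_eq, Finset.image_image, Finset.filter_image,
        Finset.card_image_of_injective _ insert_up_injective]
      by_cases h : 0 < a ∧ m < c
      · rw [if_pos ⟨h.1, h.2, Nat.succ_pos p⟩, Nat.add_sub_cancel, pivCount]
        congr 1
        refine Finset.filter_congr fun T _ => ?_
        rw [Function.comp_apply, piv_insert_last]
        exact ⟨fun h' => h'.2.2, fun h' => ⟨h.2, h.1, h'⟩⟩
      · rw [if_neg (fun h' => h ⟨h'.1, h'.2.1⟩), Finset.card_eq_zero, Finset.filter_eq_empty_iff]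
        intro T _
        rw [Function.comp_apply, piv_insert_last]
        exact fun h' => h ⟨h'.2.1, h'.1⟩
    · rw [Finset.disjoint_left]
      intro T hT hT'
      obtain ⟨hT1, -⟩ := Finset.mem_filter.1 hT
      obtain ⟨T', -, rfl⟩ := Finset.mem_image.1 (Finset.mem_filter.1 hT').1
      exact last_notMem_up _ ((Finset.mem_powersetCard.1 hT1).1 (Finset.mem_insert_self _ _))

theorem pivCount_le_choose (c p : ℕ) (w : Fin m → ℕ) : pivCount c p w ≤ m.choose p := by
  classical
  refine le_trans (Finset.card_le_card (Finset.filter_subset _ _)) ?_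
  rw [Finset.card_powersetCard, Finset.card_univ, Fintype.card_fin]

/-! ### Layers by the last coordinate -/

/-- the layer of value `a` in the last coordinate -/
def lay (U : Finset (Fin (m + 1) → ℕ)) (a : ℕ) : Finset (Fin m → ℕ) :=
  (U.filter fun x => x (Fin.last m) = a).image Fin.init

theorem mem_lay {U : Finset (Fin (m + 1) → ℕ)} {a : ℕ} {z : Fin m → ℕ} :
    z ∈ lay U a ↔ Fin.snoc z a ∈ U := by
  simp only [lay, Finset.mem_image, Finset.mem_filter]
  constructor
  · rintro ⟨x, ⟨hx, rfl⟩, rfl⟩
    rwa [Fin.snoc_init_self]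
  · intro h
    exact ⟨_, ⟨h, Fin.snoc_last _ _⟩, Fin.init_snoc _ _⟩

theorem snoc_mem_box {κ : Fin (m + 1) → ℕ} {e a : ℕ} {z : Fin m → ℕ} :
    (Fin.snoc z a : Fin (m + 1) → ℕ) ∈ CL.box κ e ↔
      a < κ (Fin.last m) ∧ a ≤ e ∧ z ∈ CL.box (fun i => κ i.castSucc) (e - a) := by
  simp only [CL.mem_box, Fin.sum_univ_castSucc, Fin.snoc_castSucc, Fin.snoc_last]
  constructor
  · rintro ⟨h1, h2⟩
    exact ⟨by simpa using h2 (Fin.last m), by omega, by omega,
      fun i => by simpa using h2 i.castSucc⟩
  · rintro ⟨h1, h2, h3, h4⟩
    refine ⟨by omega, fun i => ?_⟩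
    induction i using Fin.lastCases with
    | last => simpa using h1
    | cast i => simpa using h4 i

theorem lay_subset {κ : Fin (m + 1) → ℕ} {e a : ℕ} {U : Finset (Fin (m + 1) → ℕ)}
    (hU : U ⊆ CL.box κ e) : lay U a ⊆ CL.box (fun i => κ i.castSucc) (e - a) :=
  fun _ hz => (snoc_mem_box.1 (hU (mem_lay.1 hz))).2.2

theorem sum_lay {κ : Fin (m + 1) → ℕ} {e : ℕ} {U : Finset (Fin (m + 1) → ℕ)}
    (hU : U ⊆ CL.box κ e) (f : (Fin (m + 1) → ℕ) → ℕ) :
    ∑ x ∈ U, f x = ∑ a ∈ Finset.range (e + 1), ∑ z ∈ lay U a, f (Fin.snoc z a) := by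
  rw [← Finset.sum_fiberwise_of_maps_to (g := fun x => x (Fin.last m))
    (t := Finset.range (e + 1))
    (fun x hx => Finset.mem_range.2 (Nat.lt_succ_of_le ?_))]
  · refine Finset.sum_congr rfl fun a _ => ?_
    rw [lay, Finset.sum_image]
    · refine Finset.sum_congr rfl fun x hx => ?_
      rw [← (Finset.mem_filter.1 hx).2, Fin.snoc_init_self]
    · intro x hx y hy h
      rw [← Fin.snoc_init_self x, ← Fin.snoc_init_self y, h, (Finset.mem_filter.1 hx).2,
        (Finset.mem_filter.1 hy).2]
  · have hb := hU hx
    rw [← (CL.mem_box.1 hb).1]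
    exact Finset.single_le_sum (f := x) (fun j _ => Nat.zero_le _) (Finset.mem_univ _)

theorem move_apply {x : Fin m → ℕ} {i j : Fin m} (hij : i ≠ j) (t : Fin m) :
    (x - Pi.single j 1 + Pi.single i 1 : Fin m → ℕ) t =
      if t = j then x j - 1 else if t = i then x i + 1 else x t := by
  by_cases h1 : t = j
  · subst h1; simp [Ne.symm hij]
  · by_cases h2 : t = i
    · subst h2; simp [h1]
    · simp [h1, h2]

theorem move_sum {x : Fin m → ℕ} {i j : Fin m} (_hij : i ≠ j) (hj : 0 < x j) :
    ∑ t, (x - Pi.single j 1 + Pi.single i 1 : Fin m → ℕ) t = ∑ t, x t := by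
  have h := CL.sum_sub_single hj
  simp only [Pi.add_apply, Finset.sum_add_distrib, Finset.sum_pi_single']
  simp
  simp at h
  omega

/-- Lex segments maximise the sum of pivot counts among stable families. -/
theorem sum_pivCount_le {c B p e : ℕ} (hB : e < B) {U L : Finset (Fin m → ℕ)}
    (hU : U ⊆ CL.box (capB c B) e)
    (hst : ∀ w ∈ U, ∀ i j : Fin m, i < j → 0 < w j →
      w - Pi.single j 1 + Pi.single i 1 ∈ CL.box (capB c B) e → w - Pi.single j 1 + Pi.single i 1 ∈ U)
    (hL : CL.IsSeg (capB c B) e L) (hcard : U.card = L.card) :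
    ∑ w ∈ U, pivCount c p w ≤ ∑ w ∈ L, pivCount c p w := by
  classical
  induction m generalizing p e with
  | zero =>
    rw [Finset.eq_of_subset_of_card_le
      ((CL.isSeg_of_le_one (Nat.zero_le 1) hU).subset_of_card_le hL hcard.le) hcard.ge]
  | succ m ih =>
  rcases Nat.eq_zero_or_pos e with he | he
  · subst he
    have hseg : CL.IsSeg (capB c B) 0 U := by
      refine ⟨hU, fun x hx y hy h => absurd h ?_⟩
      have h0 : ∀ z ∈ CL.box (capB (m := m + 1) c B) 0, z = 0 := fun z hz => funext fun i =>
        (Finset.sum_eq_zero_iff.1 (CL.mem_box.1 hz).1) i (Finset.mem_univ i)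
      rw [h0 x (hU hx), h0 y hy]
      exact CL.gtL_irrefl _
    rw [Finset.eq_of_subset_of_card_le (hseg.subset_of_card_le hL hcard.le) hcard.ge]
  have hmono : Monotone (capB (m := m) c B) := by
    intro i j hij
    have : (i : ℕ) ≤ j := hij
    simp only [capB]
    split_ifs <;> omega
  -- compress the layers
  have hlaysub : ∀ a, lay U a ⊆ CL.box (capB c B) (e - a) := fun a => by
    rw [← capB_castSucc (m := m)]
    exact lay_subset hU
  choose S hS hSc using fun a => CL.exists_seg (capB (m := m) c B) (e - a) (lay U a).card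
    (Finset.card_le_card (hlaysub a))
  set W := (CL.box (capB (m := m + 1) c B) e).filter
    fun x => (Fin.init x : Fin m → ℕ) ∈ S (x (Fin.last m)) with hW
  have hWlay : ∀ a, lay W a = S a := by
    intro a
    ext z
    rw [mem_lay, hW, Finset.mem_filter, Fin.snoc_last, Fin.init_snoc]
    refine ⟨fun h => h.2, fun h => ⟨?_, h⟩⟩
    have hne : (lay U a).Nonempty := by
      rw [← Finset.card_pos, ← hSc a]
      exact Finset.card_pos.2 ⟨z, h⟩
    obtain ⟨z', hz'⟩ := hne
    obtain ⟨h1, h2, -⟩ := snoc_mem_box.1 (hU (mem_lay.1 hz'))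
    refine snoc_mem_box.2 ⟨h1, h2, ?_⟩
    rw [capB_castSucc]
    exact (hS a).1 h
  have hWb : W ⊆ CL.box (capB (m := m + 1) c B) e := Finset.filter_subset _ _
  -- layers are stable
  have hlayst : ∀ a, ∀ w ∈ lay U a, ∀ i j : Fin m, i < j → 0 < w j →
      w - Pi.single j 1 + Pi.single i 1 ∈ CL.box (capB c B) (e - a) →
      w - Pi.single j 1 + Pi.single i 1 ∈ lay U a := by
    intro a w hw i j hij hj hbox
    obtain ⟨h1, h2, -⟩ := snoc_mem_box.1 (hU (mem_lay.1 hw))
    have e1 : (Fin.snoc w a : Fin (m + 1) → ℕ) - Pi.single j.castSucc 1 + Pi.single i.castSucc 1 =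
        Fin.snoc (w - Pi.single j 1 + Pi.single i 1) a := by
      funext t
      induction t using Fin.lastCases with
      | last => simp
      | cast t => simp [Pi.single_apply]
    have := hst _ (mem_lay.1 hw) i.castSucc j.castSucc (by simpa using hij) (by simpa using hj)
      (by rw [e1]; exact snoc_mem_box.2 ⟨h1, h2, by rw [capB_castSucc]; exact hbox⟩)
    rw [e1] at this
    exact mem_lay.2 this
  have hstep1 : ∑ x ∈ U, pivCount c p x ≤ ∑ x ∈ W, pivCount c p x := by
    rw [sum_lay hU, sum_lay hWb]
    refine Finset.sum_le_sum fun a _ => ?_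
    rw [hWlay]
    have hI : ∀ q, ∑ z ∈ lay U a, pivCount c q z ≤ ∑ z ∈ S a, pivCount c q z := fun q =>
      ih (lt_of_le_of_lt (Nat.sub_le e a) hB) (hlaysub a) (hlayst a) (hS a) (hSc a).symm
    simp only [pivCount_snoc, Finset.sum_add_distrib]
    refine add_le_add ?_ ?_
    · split_ifs
      · exact hI p
      · rw [Finset.sum_const, Finset.sum_const, hSc a]
    · split_ifs
      · exact hI (p - 1)
      · simp
  have hWc : W.card = U.card := by
    rw [Finset.card_eq_sum_ones, Finset.card_eq_sum_ones U, sum_lay hU, sum_lay hWb]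
    refine Finset.sum_congr rfl fun a _ => ?_
    rw [hWlay, Finset.sum_const, Finset.sum_const, hSc]
  refine hstep1.trans ?_
  -- moving one unit out of the last coordinate stays inside the compressed family
  have hdown : ∀ x ∈ W, ∀ i : Fin m, 0 < x (Fin.last m) →
      x - Pi.single (Fin.last m) 1 + Pi.single i.castSucc 1 ∈ CL.box (capB c B) e →
      x - Pi.single (Fin.last m) 1 + Pi.single i.castSucc 1 ∈ W := by
    intro x hx i hxl hbox
    set a := x (Fin.last m) with ha
    set x' := x - Pi.single (Fin.last m) 1 + Pi.single i.castSucc 1 with hx'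
    have hlastv : x' (Fin.last m) = a - 1 := by
      simp [hx', a, (Fin.castSucc_ne_last i).symm]
    have hinit : Fin.init x' = Fin.init x + Pi.single i 1 := by
      funext t
      simp [hx', Fin.init, Pi.single_apply, Fin.castSucc_ne_last]
    obtain ⟨hxb, hxS⟩ := Finset.mem_filter.1 hx
    have hae : a ≤ e := by
      rw [← Fin.snoc_init_self x] at hxb
      exact (snoc_mem_box.1 hxb).2.1
    have hsh : CL.sh (capB c B) (e - a) (lay U a) ⊆ lay U (a - 1) := by
      intro b hb
      obtain ⟨hbB, l, hl, hlA⟩ := CL.mem_sh.1 hb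
      rw [show e - a + 1 = e - (a - 1) by omega] at hbB
      obtain ⟨h1, -, -⟩ := snoc_mem_box.1 (hU (mem_lay.1 hlA))
      have e1 : (Fin.snoc (b - Pi.single l 1) a : Fin (m + 1) → ℕ) - Pi.single (Fin.last m) 1 +
          Pi.single l.castSucc 1 = Fin.snoc b (a - 1) := by
        funext t
        induction t using Fin.lastCases with
        | last => simp [(Fin.castSucc_ne_last l).symm]
        | cast t =>
          by_cases htl : t = l
          · subst htl; simp [Fin.castSucc_ne_last]; omega
          · simp [Fin.castSucc_ne_last, htl]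
      have := hst _ (mem_lay.1 hlA) l.castSucc (Fin.last m) (Fin.castSucc_lt_last l)
        (by simpa using hxl)
        (by rw [e1]; exact snoc_mem_box.2 ⟨by omega, by omega, by rw [capB_castSucc]; exact hbB⟩)
      rw [e1] at this
      exact mem_lay.2 this
    have hle : (CL.sh (capB c B) (e - a) (S a)).card ≤ (S (a - 1)).card := by
      refine le_trans (CL.clements_lindstrom hmono (e - a) (lay U a) (S a) (hlaysub a) (hS a)
        (hSc a).symm) ?_
      rw [hSc]
      exact Finset.card_le_card hsh
    have hseg := (hS a).sh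
    rw [show e - a + 1 = e - (a - 1) by omega] at hseg
    have hsub := hseg.subset_of_card_le (hS (a - 1)) hle
    refine Finset.mem_filter.2 ⟨hbox, ?_⟩
    rw [hlastv, hinit]
    refine hsub (CL.mem_sh.2 ⟨?_, i, by simp, ?_⟩)
    · rw [← Fin.snoc_init_self x', hinit, hlastv] at hbox
      have h3 := (snoc_mem_box.1 hbox).2.2
      rw [capB_castSucc, ← show e - a + 1 = e - (a - 1) by omega] at h3
      exact h3
    · convert hxS using 1
      funext t
      simp
  -- a missed larger element has larger last coordinate
  have hkey : ∀ k, ∀ x ∈ W, x (Fin.last m) = k → ∀ y ∈ CL.box (capB (m := m + 1) c B) e, y ∉ W →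
      CL.gtL y x → x (Fin.last m) < y (Fin.last m) := by
    intro k
    induction k using Nat.strong_induction_on with
    | _ k ihk =>
    intro x hx hk y hy hyW hgt
    by_contra hcon
    push Not at hcon
    have hxb := hWb hx
    obtain ⟨t, htlt, htl⟩ := hgt
    have htne : t ≠ Fin.last m := by rintro rfl; omega
    obtain ⟨t, rfl⟩ := Fin.exists_castSucc_eq.2 htne
    rcases eq_or_lt_of_le hcon with heq | hlt
    · apply hyW
      refine Finset.mem_filter.2 ⟨hy, ?_⟩
      have hys : Fin.init y ∈ CL.box (capB (m := m) c B) (e - y (Fin.last m)) := by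
        rw [← Fin.snoc_init_self y] at hy
        have := (snoc_mem_box.1 hy).2.2
        rwa [capB_castSucc] at this
      rw [heq] at hys ⊢
      exact (hS _).2 _ (Finset.mem_filter.1 hx).2 _ hys
        ⟨t, fun j hj => htlt j.castSucc (by simpa using hj), htl⟩
    · -- move one unit of the last coordinate as far right as possible
      have hne : (Finset.univ.filter fun i : Fin m =>
          t ≤ i ∧ x i.castSucc + 1 < capB (m := m + 1) c B i.castSucc).Nonempty :=
        ⟨t, Finset.mem_filter.2 ⟨Finset.mem_univ t, le_rfl, by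
          have := (CL.mem_box.1 hy).2 t.castSucc
          omega⟩⟩
      set i := Finset.max' _ hne
      obtain ⟨-, hti, hcap⟩ := Finset.mem_filter.1 (Finset.max'_mem _ hne)
      set x' := x - Pi.single (Fin.last m) 1 + Pi.single i.castSucc 1 with hx'
      have hne' : i.castSucc ≠ Fin.last m := Fin.castSucc_ne_last i
      have hxpos : 0 < x (Fin.last m) := by omega
      have hx'box : x' ∈ CL.box (capB (m := m + 1) c B) e := by
        refine CL.mem_box.2 ⟨(move_sum hne' hxpos).trans (CL.mem_box.1 hxb).1, fun s => ?_⟩
        rw [hx', move_apply hne']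
        have := (CL.mem_box.1 hxb).2 s
        split_ifs with h1 h2
        · subst h1; omega
        · subst h2; exact hcap
        · exact this
      have hx'W : x' ∈ W := hdown x hx i hxpos hx'box
      have hx'l : x' (Fin.last m) = x (Fin.last m) - 1 := by
        rw [hx', move_apply hne', if_pos rfl]
      have hval : ∀ s : Fin m, x' s.castSucc =
          if s = i then x i.castSucc + 1 else x s.castSucc := by
        intro s
        rw [hx', move_apply hne', if_neg (Fin.castSucc_ne_last s)]
        simp only [Fin.castSucc_inj]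
      have hne2 : x' ≠ y := fun h => hyW (h ▸ hx'W)
      have hgt' : CL.gtL y x' := by
        rcases lt_or_eq_of_le hti with h | h
        · refine ⟨t.castSucc, fun j hj => ?_, ?_⟩
          · induction j using Fin.lastCases with
            | last => exact absurd hj (not_lt.2 (Fin.le_last _))
            | cast j =>
              rw [hval, if_neg (ne_of_lt (lt_trans (by simpa using hj) h))]
              exact htlt _ hj
          · rw [hval, if_neg (ne_of_lt h)]; exact htl
        · replace h : t = i := h
          rcases lt_or_eq_of_le (Nat.succ_le_of_lt htl) with h2 | h2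
          · refine ⟨t.castSucc, fun j hj => ?_, by rw [hval, if_pos h, ← h]; omega⟩
            induction j using Fin.lastCases with
            | last => exact absurd hj (not_lt.2 (Fin.le_last _))
            | cast j =>
              rw [hval, if_neg (fun e => absurd hj (by rw [e, ← h]; exact lt_irrefl _))]
              exact htlt _ hj
          · exfalso
            apply hne2
            have hge : ∀ s, y s ≤ x' s := by
              intro s
              induction s using Fin.lastCases with
              | last => rw [hx'l]; omega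
              | cast s =>
                rw [hval]
                rcases lt_trichotomy s t with h3 | h3 | h3
                · rw [if_neg (fun e => absurd h3 (by rw [e, ← h]; exact lt_irrefl _)),
                    htlt _ (by simpa using h3)]
                · subst h3; rw [if_pos h, ← h]; omega
                · rw [if_neg (fun e => absurd h3 (by rw [e, ← h]; exact lt_irrefl _))]
                  have hns : ¬ (x s.castSucc + 1 < capB (m := m + 1) c B s.castSucc) := by
                    intro hh
                    have : s ≤ i := Finset.le_max' _ _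
                      (Finset.mem_filter.2 ⟨Finset.mem_univ s, h3.le, hh⟩)
                    rw [← h] at this
                    exact absurd h3 (not_lt.2 this)
                  have := (CL.mem_box.1 hy).2 s.castSucc
                  omega
            funext s
            exact ((Finset.sum_eq_sum_iff_of_le (fun s _ => hge s)).1
              ((CL.mem_box.1 hy).1.trans (CL.mem_box.1 hx'box).1.symm) s (Finset.mem_univ s)).symm
      have := ihk (x (Fin.last m) - 1) (by omega) x' hx'W hx'l y hy hyW hgt'
      omega
  -- compare with the segment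
  have key : ∀ x ∈ W \ L, ∀ y ∈ L \ W, pivCount c p x ≤ pivCount c p y := by
    intro x hx y hy
    rw [Finset.mem_sdiff] at hx hy
    have hgt : CL.gtL y x := by
      rcases CL.gtL_total (show y ≠ x from fun h => hy.2 (h ▸ hx.1)) with h | h
      · exact h
      · exact absurd (hL.2 y hy.1 x (hWb hx.1) h) hx.2
    have hlt := hkey _ x hx.1 rfl y (hL.1 hy.1) hy.2 hgt
    have hcapx := (CL.mem_box.1 (hL.1 hy.1)).2 (Fin.last m)
    rw [← Fin.snoc_init_self x, ← Fin.snoc_init_self y, pivCount_snoc, pivCount_snoc,
      if_neg (show y (Fin.last m) ≠ 0 by omega)]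
    by_cases hx0 : x (Fin.last m) = 0
    · rw [if_pos hx0, if_neg (fun h => absurd hx0 (Nat.pos_iff_ne_zero.1 h.1)), add_zero]
      exact le_trans (pivCount_le_choose c p _) (Nat.le_add_right _ _)
    · have hmc : ¬ m < c := by
        intro h
        simp [capB, h] at hcapx
        omega
      rw [if_neg hx0, if_neg (fun h => hmc h.2.1), if_neg (fun h => hmc h.2.1)]
  have hd : (L \ W).card = (W \ L).card :=
    Finset.card_sdiff_comm (by omega)
  have hsum : ∑ x ∈ W \ L, pivCount c p x ≤ ∑ y ∈ L \ W, pivCount c p y := by
    rw [← Finset.sum_coe_sort, ← Finset.sum_coe_sort (L \ W),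
      ← (Finset.equivOfCardEq hd.symm).sum_comp]
    exact Finset.sum_le_sum fun s _ => key s.1 s.2 _ (Subtype.prop _)
  rw [← Finset.sum_sdiff (Finset.inter_subset_left : W ∩ L ⊆ W),
    ← Finset.sum_sdiff (Finset.inter_subset_right : W ∩ L ⊆ L), Finset.sdiff_inter_self_left,
    Finset.sdiff_inter_self_right]
  omega

end Vale.Agent.P200b.LPP
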