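import Vale.Agent.P200b.Frame
import Vale.Agent.P200b.Bound

/-!
Graded Betti numbers of ideals containing a regular sequence of quadrics are bounded by those of a
monomial ideal containing squares with the same Hilbert function.
-/

noncomputable section

namespace Vale.Agent.P200b.Result

open MvPolynomial Vale.Agent.P200b

theorem monomial_hilbert {σ K : Type*} [Field K] (U : Set (σ →₀ ℕ))
    (hU : ∀ a ∈ U, ∀ b, a ≤ b → b ∈ U) (d : ℕ) :
    Module.finrank K ↥((Ideal.span ((fun a => monomial a (1 : K)) '' U)).restrictScalars K ⊓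
      homogeneousSubmodule σ K d) = {a ∈ U | a.degree = d}.ncard := by
  have e : (Ideal.span ((fun a => monomial a (1 : K)) '' U)).restrictScalars K ⊓
      homogeneousSubmodule σ K d = restrictSupport K {a ∈ U | a.degree = d} := by
    ext p
    simp only [Submodule.mem_inf, Submodule.restrictScalars_mem, mem_homogeneousSubmodule,
      mem_ideal_span_monomial_image, mem_restrictSupport_iff, Set.subset_def,
      Finset.mem_coe, Set.mem_ofPred_eq]
    constructor
    · rintro ⟨h1, h2⟩ a ha
      obtain ⟨s, hs, hsa⟩ := h1 a ha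
      exact ⟨hU s hs a hsa, by
        by_contra hne
        exact MvPolynomial.mem_support_iff.1 ha (h2.coeff_eq_zero hne)⟩
    · intro h
      refine ⟨fun a ha => ⟨a, (h a ha).1, le_rfl⟩, ?_⟩
      intro a ha
      have hd := (h a (MvPolynomial.mem_support_iff.2 ha)).2
      rwa [Finsupp.degree_eq_weight_one] at hd
  rw [e, Module.finrank_eq_nat_card_basis (basisRestrictSupport K _), Nat.card_coe_set_eq]

/-- For a homogeneous ideal `I` containing a regular sequence of `c` quadrics in `n` variables there
is a monomial ideal containing the squares of the first `c` variables with the same Hilbert function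
and with all graded Betti numbers at least those of `I`. -/
theorem result {K : Type*} [Field K] {n c : ℕ} (hc : c ≤ n)
    (f : Fin c → MvPolynomial (Fin n) K) (hf : ∀ i, (f i).IsHomogeneous 2)
    (hreg : ∀ i g, g * f i ∈ Ideal.span (f '' Set.Iio i) → g ∈ Ideal.span (f '' Set.Iio i))
    (I : Ideal (MvPolynomial (Fin n) K)) (_hI : ∀ p ∈ I, ∀ d, homogeneousComponent d p ∈ I)
    (hfI : ∀ i, f i ∈ I) :
    ∃ U : Set (Fin n →₀ ℕ),
      (∀ i : Fin c, (X (Fin.castLE hc i) : MvPolynomial (Fin n) K) ^ 2 ∈
        Ideal.span ((fun a => monomial a (1 : K)) '' U)) ∧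
      (∀ d, Module.finrank K
          ↥((Ideal.span ((fun a => monomial a (1 : K)) '' U)).restrictScalars K ⊓
            homogeneousSubmodule (Fin n) K d) =
        Module.finrank K ↥(I.restrictScalars K ⊓ homogeneousSubmodule (Fin n) K d)) ∧
      ∀ p j : ℕ, boundaries I p j ≤ cycles I p j ∧
        betti I p j ≤ betti (Ideal.span ((fun a => monomial a (1 : K)) '' U)) p j := by
  have hs : Vale.Agent.P200.StrongReg f :=
    Vale.Agent.P200.strongReg_of_isRegSeq f (fun _ => 2) (fun _ => Nat.two_pos) hf hreg
  obtain ⟨D, instD, instA, ⟨F⟩⟩ := exists_frame hc f hf hs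
  have hHF : ∀ d, Module.finrank K
      ↥((Ideal.span ((fun a => monomial a (1 : K)) '' F.lead I)).restrictScalars K ⊓
        homogeneousSubmodule (Fin n) K d) =
      Module.finrank K ↥(I.restrictScalars K ⊓ homogeneousSubmodule (Fin n) K d) := fun d => by
    rw [monomial_hilbert _ (fun a ha b hab => F.lead_upper I ha hab), F.ncard_lead]
  refine ⟨F.lead I, fun i => ?_, hHF, fun p j => ⟨boundaries_le_cycles I p j, ?_⟩⟩
  · rw [X_pow_eq_monomial]
    exact Ideal.subset_span ⟨_, F.sq_mem_lead I hf hfI _ i.2, rfl⟩
  · exact betti_le_of_boundaries I _ j (fun d => (hHF d).symm) (fun q => F.boundaries_lead_le I q j) p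

end Vale.Agent.P200b.Result
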