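import Mathlib

/-!
Ordered monomials in elements which commute up to sign.
-/

noncomputable section

namespace Vale.Agent.P200b

variable {R : Type*} [Ring R] {n : ℕ}

/-- The ordered product of the first `m` powers. -/
def mon (g : Fin n → R) : ℕ → (Fin n → ℕ) → R
  | 0, _ => 1
  | m + 1, a => mon g m a * if h : m < n then g ⟨m, h⟩ ^ a ⟨m, h⟩ else 1

theorem pow_mul_sign {x y : R} (d : ℕ) (h : x * y = (-1) ^ d * (y * x)) :
    ∀ k, x ^ k * y = (-1) ^ (k * d) * (y * x ^ k)
  | 0 => by simp
  | k + 1 => by
    have hz : ∀ z : R, x ^ k * ((-1) ^ d * z) = (-1) ^ d * (x ^ k * z) := fun z => by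
      rw [← mul_assoc, ← mul_assoc, ((Commute.one_right (x ^ k)).neg_right.pow_right d).eq]
    rw [pow_succ, mul_assoc, h, hz, ← mul_assoc (x ^ k) y x, pow_mul_sign d h k,
      show (k + 1) * d = d + k * d by ring, pow_add]
    simp only [mul_assoc]

/-- The parity picked up when `s` moves left past the powers after it. -/
def par (e : Fin n → Fin n → ℕ) (m : ℕ) (s : Fin n) (a : Fin n → ℕ) : ℕ :=
  ∑ u ∈ Finset.univ.filter (fun u : Fin n => s < u ∧ u.1 < m), e s u * a u

theorem mon_congr (g : Fin n → R) : ∀ m, ∀ a b : Fin n → ℕ, (∀ u : Fin n, u.1 < m → a u = b u) →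
    mon g m a = mon g m b
  | 0, _, _, _ => rfl
  | m + 1, a, b, h => by
    simp only [mon]
    rw [mon_congr g m a b fun u hu => h u (Nat.lt_succ_of_lt hu)]
    by_cases hm : m < n
    · simp [hm, h ⟨m, hm⟩ (Nat.lt_succ_self m)]
    · simp [hm]

theorem mon_mul (g : Fin n → R) (e : Fin n → Fin n → ℕ)
    (hcomm : ∀ u t, u ≠ t → g t * g u = (-1) ^ e u t * (g u * g t)) :
    ∀ m, ∀ (a : Fin n → ℕ) (s : Fin n), s.1 < m →
      mon g m a * g s = (-1) ^ par e m s a * mon g m (Function.update a s (a s + 1))
  | 0, _, _, h => absurd h (Nat.not_lt_zero _)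
  | m + 1, a, s, h => by
    simp only [mon]
    by_cases hm : m < n
    · rw [dif_pos hm, dif_pos hm]
      rcases Nat.lt_succ_iff_lt_or_eq.1 h with hs | hs
      · have hne : s ≠ ⟨m, hm⟩ := fun e => by subst e; exact lt_irrefl _ hs
        rw [Function.update_of_ne (Ne.symm hne), mul_assoc, pow_mul_sign _ (hcomm s ⟨m, hm⟩ hne),
          ← mul_assoc, ((Commute.one_right (mon g m a)).neg_right.pow_right _).eq, mul_assoc,
          ← mul_assoc (mon g m a), mon_mul g e hcomm m a s hs, ← mul_assoc, ← mul_assoc, ← pow_add,
          mul_assoc]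
        congr 2
        unfold par
        have ef : (Finset.univ.filter fun u : Fin n => s < u ∧ u.1 < m + 1) =
            insert (⟨m, hm⟩ : Fin n) (Finset.univ.filter fun u : Fin n => s < u ∧ u.1 < m) := by
          ext u
          simp only [Finset.mem_filter, Finset.mem_univ, true_and, Finset.mem_insert, Fin.ext_iff,
            Fin.lt_def]
          omega
        rw [ef, Finset.sum_insert (by simp), mul_comm]
      · have e : s = ⟨m, hm⟩ := Fin.ext hs
        subst e
        have h0 : par e (m + 1) ⟨m, hm⟩ a = 0 := by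
          rw [par, Finset.filter_eq_empty_iff.2 (fun u _ => by simp only [Fin.lt_def]; omega),
            Finset.sum_empty]
        rw [h0, pow_zero, one_mul, Function.update_self, mul_assoc, ← pow_succ]
        congr 1
        exact mon_congr g m _ _ fun u hu =>
          (Function.update_of_ne (fun e => by subst e; exact lt_irrefl _ hu) _ _).symm
    · rw [dif_neg hm, dif_neg hm, mul_one, mul_one, mon_mul g e hcomm m a s (by omega)]
      unfold par
      congr 3
      ext u
      simp only [Finset.mem_filter, Finset.mem_univ, true_and]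
      omega

theorem mon_induction (g : Fin n → R) {P : ℕ → R → Prop} (h1 : P 0 1)
    (hs : ∀ k x s, P k x → P (k + 1) (x * g s)) :
    ∀ m, ∀ a : Fin n → ℕ, P (∑ u ∈ Finset.univ.filter (fun u : Fin n => u.1 < m), a u) (mon g m a)
  | 0, a => by simpa [mon] using h1
  | m + 1, a => by
    have ih := mon_induction g h1 hs m a
    simp only [mon]
    by_cases hm : m < n
    · rw [dif_pos hm]
      have ef : (Finset.univ.filter fun u : Fin n => u.1 < m + 1) =
          insert (⟨m, hm⟩ : Fin n) (Finset.univ.filter fun u : Fin n => u.1 < m) := by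
        ext u
        simp only [Finset.mem_filter, Finset.mem_univ, true_and, Finset.mem_insert, Fin.ext_iff]
        omega
      rw [ef, Finset.sum_insert (by simp), add_comm]
      generalize a ⟨m, hm⟩ = k
      induction k with
      | zero => simpa using ih
      | succ k ihk => rw [pow_succ, ← mul_assoc, ← add_assoc]; exact hs _ _ _ ihk
    · rw [dif_neg hm, mul_one]
      have ef : (Finset.univ.filter fun u : Fin n => u.1 < m + 1) =
          (Finset.univ.filter fun u : Fin n => u.1 < m) := by
        ext u
        have := u.2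
        simp only [Finset.mem_filter, Finset.mem_univ, true_and]
        omega
      rwa [ef]

theorem mon_zero (g : Fin n → R) : ∀ m, mon g m 0 = 1
  | 0 => rfl
  | m + 1 => by simp [mon, mon_zero g m]

end Vale.Agent.P200b
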